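import Vale.Agent.P145.Dom.Defs

/-!
The law of the height representation in a polygon is a probability measure, and heights exist.
-/

namespace Vale.Agent.P145.Dom

open Finset Filter Topology MeasureTheory ProbabilityTheory Vale.Agent.P145.FP
  Vale.Agent.P145.PT

lemma ew_nonneg {t : ℝ} (ht : 0 ≤ t) (a b p q : Bool) : 0 ≤ ew t a b p q := by
  unfold ew; split_ifs <;> positivity

lemma hw_nonneg {t : ℝ} (ht : 0 ≤ t) (σ : Conf) (e : ℤ × ℤ) : 0 ≤ hw t σ e := ew_nonneg ht _ _ _ _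

lemma vw_nonneg {t : ℝ} (ht : 0 ≤ t) (σ : Conf) (e : ℤ × ℤ) : 0 ≤ vw t σ e := ew_nonneg ht _ _ _ _

lemma wt_nonneg {t : ℝ} (ht : 0 ≤ t) (F : Finset (ℤ × ℤ)) (σ : Conf) : 0 ≤ wt t F σ :=
  mul_nonneg (prod_nonneg fun _ _ => hw_nonneg ht _ _) (prod_nonneg fun _ _ => vw_nonneg ht _ _)

lemma conf_empty : conf ∅ = fun _ => true := by
  funext x; simp [conf]

lemma conf_eq_true {S : Finset Site} {x : Site} : conf S x = true ↔ x ∉ S := by
  simp [conf]

lemma wt_empty (t : ℝ) (F : Finset (ℤ × ℤ)) : wt t F (conf ∅) = 1 := by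
  simp [wt, conf_empty, hw, vw, ew]

lemma Z_pos {t : ℝ} (ht : 0 ≤ t) {n : ℕ} (p : ZMod n → ℤ × ℤ) (F : Finset (ℤ × ℤ)) :
    0 < ∑ S' ∈ (free p F).powerset, wt t F (conf S') := by
  have h1 : wt t F (conf ∅) ≤ ∑ S' ∈ (free p F).powerset, wt t F (conf S') :=
    single_le_sum (f := fun S => wt t F (conf S)) (fun S _ => wt_nonneg ht F (conf S))
      (empty_mem_powerset _)
  rw [wt_empty] at h1
  linarith

theorem law_prob {t : ℝ} (ht : 0 ≤ t) {n : ℕ} (p : ZMod n → ℤ × ℤ) (F : Finset (ℤ × ℤ)) :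
    IsProbabilityMeasure (law t p F) := by
  have hZ := Z_pos ht p F
  refine ⟨?_⟩
  unfold law
  rw [Measure.coe_finsetSum, Finset.sum_apply]
  simp only [Measure.smul_apply, measure_univ, smul_eq_mul, mul_one]
  rw [← ENNReal.ofReal_sum_of_nonneg (fun S _ => div_nonneg (wt_nonneg ht F _) hZ.le),
    ← sum_div, div_self hZ.ne', ENNReal.ofReal_one]

/-- An integral with respect to the law. -/
theorem law_integral {t : ℝ} (ht : 0 ≤ t) {n : ℕ} (p : ZMod n → ℤ × ℤ) (F : Finset (ℤ × ℤ))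
    {E : Type*} [NormedAddCommGroup E] [NormedSpace ℝ E] [CompleteSpace E] (f : Conf → E) :
    ∫ σ, f σ ∂(law t p F) = ∑ S ∈ (free p F).powerset,
      (wt t F (conf S) / ∑ S' ∈ (free p F).powerset, wt t F (conf S')) • f (conf S) := by
  have hZ := Z_pos ht p F
  unfold law
  rw [integral_finsetSum_measure]
  · refine sum_congr rfl fun S _ => ?_
    rw [integral_smul_measure, integral_dirac,
      ENNReal.toReal_ofReal (div_nonneg (wt_nonneg ht F _) hZ.le)]
  · intro S _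
    exact (integrable_dirac (by simp)).smul_measure ENNReal.ofReal_ne_top

theorem law_ae {t : ℝ} {n : ℕ} {p : ZMod n → ℤ × ℤ} {F : Finset (ℤ × ℤ)}
    {P : Conf → Prop} (h : ∀ S ⊆ free p F, wt t F (conf S) ≠ 0 → P (conf S)) :
    ∀ᵐ σ ∂(law t p F), P σ := by
  unfold law
  rw [ae_iff, Measure.coe_finsetSum, Finset.sum_apply]
  refine sum_eq_zero fun S hS => ?_
  rw [Measure.smul_apply, smul_eq_mul, mul_eq_zero]
  by_cases h0 : wt t F (conf S) = 0
  · left; rw [h0]; simp
  · right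
    rw [Measure.dirac_apply]
    have h1 : P (conf S) := h S (mem_powerset.1 hS) h0
    simp [Set.indicator, h1]

/-- Conversely, an almost sure property holds for all configurations of positive weight. -/
theorem of_law_ae {t : ℝ} (ht : 0 ≤ t) {n : ℕ} {p : ZMod n → ℤ × ℤ} {F : Finset (ℤ × ℤ)}
    {P : Conf → Prop} (h : ∀ᵐ σ ∂(law t p F), P σ) {S : Finset Site} (hS : S ⊆ free p F)
    (h0 : wt t F (conf S) ≠ 0) : P (conf S) := by
  have hZ := Z_pos ht p F
  unfold law at h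
  rw [ae_iff, Measure.coe_finsetSum, Finset.sum_apply, Finset.sum_eq_zero_iff] at h
  have h1 := h S (mem_powerset.2 hS)
  rw [Measure.smul_apply, smul_eq_mul, mul_eq_zero] at h1
  have h2 : 0 < wt t F (conf S) := lt_of_le_of_ne (wt_nonneg ht F _) (Ne.symm h0)
  rcases h1 with h1 | h1
  · rw [ENNReal.ofReal_eq_zero] at h1
    exact absurd h1 (not_le.2 (div_pos h2 hZ))
  · rw [Measure.dirac_apply] at h1
    by_contra h3
    simp [Set.indicator, h3] at h1

end Vale.Agent.P145.Dom
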