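import Vale.Agent.P145.Dom.Zb

/-!
The spin law in a polygon and the zero boundary heights.
-/

namespace Vale.Agent.P145.Dom

open Finset Filter Topology MeasureTheory ProbabilityTheory Vale.Agent.P145.FP
  Vale.Agent.P145.PT

/-- Every integer function on the integers has an integer primitive. -/
lemma exists_primZ (f : ℤ → ℤ) : ∃ G : ℤ → ℤ, ∀ n, G (n + 1) - G n = f n := by
  refine ⟨fun n => Int.casesOn n (fun k => ∑ i ∈ range k, f i)
    (fun k => - ∑ i ∈ range (k + 1), f (Int.negSucc i)), fun n => ?_⟩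
  rcases n with k | k
  · change (∑ i ∈ range (k + 1), f i) - ∑ i ∈ range k, f i = f k
    rw [sum_range_succ]; ring
  · rcases k with _ | k
    · change (∑ i ∈ range 0, f i) - (- ∑ i ∈ range 1, f (Int.negSucc i)) = f (Int.negSucc 0)
      simp
    · change (- ∑ i ∈ range (k + 1), f (Int.negSucc i)) - (- ∑ i ∈ range (k + 2), f (Int.negSucc i))
        = f (Int.negSucc (k + 1))
      rw [sum_range_succ _ (k + 1)]; ring

lemma exists_potZ {a b : ℤ → ℤ → ℤ} (h : ∀ x y, a x y + b (x + 1) y = b x y + a x (y + 1)) :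
    ∃ H : ℤ → ℤ → ℤ, (∀ x y, H (x + 1) y = H x y + a x y) ∧
      ∀ x y, H x (y + 1) = H x y + b x y := by
  choose G hG using fun x => exists_primZ (b x)
  obtain ⟨K, hK⟩ := exists_primZ (fun x => a x 0)
  refine ⟨fun x y => K x + (G x y - G x 0), fun x y => ?_, fun x y => ?_⟩
  · have key : ∀ y : ℤ, (G (x + 1) y - G x y) - a x y = (G (x + 1) 0 - G x 0) - a x 0 := by
      intro y
      induction y using Int.induction_on with
      | zero => rfl
      | succ y ih =>
        have h1 := hG (x + 1) y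
        have h2 := hG x y
        have h3 := h x y
        linarith
      | pred y ih =>
        have h1 := hG (x + 1) (-(y : ℤ) - 1)
        have h2 := hG x (-(y : ℤ) - 1)
        have h3 := h x (-(y : ℤ) - 1)
        rw [sub_add_cancel] at h1 h2 h3
        linarith
    have h1 := key y
    have h2 := hK x
    simp only
    linarith
  · have := hG x y
    simp only
    linarith

/-- The integer value of a spin. -/
def si (b : Bool) : ℤ := if b = true then 1 else -1

lemma si_cases (b : Bool) : (b = true ∧ si b = 1) ∨ (b = false ∧ si b = -1) := by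
  cases b <;> simp [si]

lemma sp_si (b : Bool) : sp b = (si b : ℝ) := by cases b <;> simp [si, sp]

/-- If the constraint holds at all edges then there are integer heights; they are normalised by
`x = 0` at a vertex `o` with spin `1`. -/
theorem exists_int {σ : Conf} (o : ℤ × ℤ) (ho : σ (Sum.inl o) = true)
    (hh : ∀ x y : ℤ, σ (Sum.inl (x, y)) = σ (Sum.inl (x + 1, y)) ∨
      σ (Sum.inr (x, y)) = σ (Sum.inr (x, y - 1)))
    (hv : ∀ x y : ℤ, σ (Sum.inl (x, y)) = σ (Sum.inl (x, y + 1)) ∨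
      σ (Sum.inr (x, y)) = σ (Sum.inr (x - 1, y))) :
    ∃ x : Site → ℤ, x (Sum.inl o) = 0 ∧ (∀ v, Even (x (Sum.inl v))) ∧ (∀ s, sgn2 (x s) = σ s) ∧
      ∀ f : ℤ × ℤ, ∀ a b : ℤ, (a = 0 ∨ a = 1) → (b = 0 ∨ b = 1) →
        x (Sum.inr f) - x (Sum.inl (f.1 + a, f.2 + b)) =
          si (σ (Sum.inl (f.1 + a, f.2 + b))) * si (σ (Sum.inr f)) := by
  set τ : ℤ → ℤ → Bool := fun x y => σ (Sum.inl (x, y)) with hτ
  set u : ℤ → ℤ → Bool := fun x y => σ (Sum.inr (x, y)) with hu
  set d : Bool → Bool → Bool → ℤ := fun p q r => if p = q then 0 else si p * si r with hd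
  have hd2 : ∀ p q r, 2 * d p q r = (si p - si q) * si r := by
    intro p q r
    cases p <;> cases q <;> cases r <;> simp [hd, si]
  have h1 : ∀ x y, d (τ x (y + 1)) (τ (x + 1) (y + 1)) (u x (y + 1)) =
      d (τ x (y + 1)) (τ (x + 1) (y + 1)) (u x y) := by
    intro x y
    rcases hh x (y + 1) with h | h
    · simp only [hd, hτ, h, if_true]
    · rw [add_sub_cancel_right] at h
      simp only [hu, h]
  have h2 : ∀ x y, d (τ (x + 1) y) (τ (x + 1) (y + 1)) (u (x + 1) y) =
      d (τ (x + 1) y) (τ (x + 1) (y + 1)) (u x y) := by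
    intro x y
    rcases hv (x + 1) y with h | h
    · simp only [hd, hτ, h, if_true]
    · rw [add_sub_cancel_right] at h
      simp only [hu, h]
  obtain ⟨H, hHa, hHb⟩ := exists_potZ (a := fun x y => d (τ x y) (τ (x + 1) y) (u x y))
    (b := fun x y => d (τ x y) (τ x (y + 1)) (u x y)) (by
      intro x y
      simp only [h1, h2]
      have e1 := hd2 (τ x y) (τ (x + 1) y) (u x y)
      have e2 := hd2 (τ (x + 1) y) (τ (x + 1) (y + 1)) (u x y)
      have e3 := hd2 (τ x y) (τ x (y + 1)) (u x y)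
      have e4 := hd2 (τ x (y + 1)) (τ (x + 1) (y + 1)) (u x y)
      have : 2 * (d (τ x y) (τ (x + 1) y) (u x y) + d (τ (x + 1) y) (τ (x + 1) (y + 1)) (u x y)) =
        2 * (d (τ x y) (τ x (y + 1)) (u x y) + d (τ x (y + 1)) (τ (x + 1) (y + 1)) (u x y)) := by
        rw [mul_add, mul_add, e1, e2, e3, e4]; ring
      omega)
  have hpar : ∀ q : ℤ × ℤ, (H q.1 q.2 - H o.1 o.2) % 2 = 0 ↔ τ q.1 q.2 = true := by
    have hstep : ∀ p q r : Bool, ∀ m : ℤ, ((m + d p q r) % 2 = 0 ↔ q = true) ↔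
        (m % 2 = 0 ↔ p = true) := by
      intro p q r m
      cases p <;> cases q <;> cases r <;> simp [hd, si] <;> omega
    have gen : ∀ q : ℤ × ℤ, ((H (o.1 + q.1) (o.2 + q.2) - H o.1 o.2) % 2 = 0 ↔
        τ (o.1 + q.1) (o.2 + q.2) = true) := by
      refine plane_ind ?_ ?_ ?_
      · simp [hτ, ho]
      · intro x y
        have e1 := hHb (o.1 + x) (o.2 + y - 1)
        rw [sub_add_cancel] at e1
        simp only
        rw [e1, show o.2 + (y - 1) = o.2 + y - 1 by ring]
        have e2 := hstep (τ (o.1 + x) (o.2 + y - 1)) (τ (o.1 + x) (o.2 + y))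
          (u (o.1 + x) (o.2 + y - 1)) (H (o.1 + x) (o.2 + y - 1) - H o.1 o.2)
        rw [← e2, add_sub_right_comm (H (o.1 + x) (o.2 + y - 1))]
      · intro x y
        have e1 := hHa (o.1 + x - 1) (o.2 + y)
        rw [sub_add_cancel] at e1
        simp only
        rw [e1, show o.1 + (x - 1) = o.1 + x - 1 by ring]
        have e2 := hstep (τ (o.1 + x - 1) (o.2 + y)) (τ (o.1 + x) (o.2 + y))
          (u (o.1 + x - 1) (o.2 + y)) (H (o.1 + x - 1) (o.2 + y) - H o.1 o.2)
        rw [← e2, add_sub_right_comm (H (o.1 + x - 1) (o.2 + y))]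
    intro q
    have := gen (q.1 - o.1, q.2 - o.2)
    simpa using this
  refine ⟨Sum.elim (fun v => 2 * (H v.1 v.2 - H o.1 o.2))
    (fun f => 2 * (H f.1 f.2 - H o.1 o.2) + si (τ f.1 f.2) * si (u f.1 f.2)), ?_, ?_, ?_, ?_⟩
  · simp
  · intro v; simp
  · rintro (v | f)
    · have e1 := hpar v
      change sgn2 (2 * (H v.1 v.2 - H o.1 o.2)) = τ v.1 v.2
      rw [Bool.eq_iff_iff, ← e1, sgn2, decide_eq_true_eq]
      omega
    · have e1 := hpar f
      change sgn2 (2 * (H f.1 f.2 - H o.1 o.2) + si (τ f.1 f.2) * si (u f.1 f.2)) = u f.1 f.2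
      rw [Bool.eq_iff_iff, sgn2, decide_eq_true_eq]
      rcases si_cases (τ f.1 f.2) with ⟨h, h'⟩ | ⟨h, h'⟩ <;>
        rcases si_cases (u f.1 f.2) with ⟨k, k'⟩ | ⟨k, k'⟩ <;> rw [h', k', k] <;> rw [h] at e1 <;>
        simp at e1 ⊢ <;> omega
  · rintro ⟨x, y⟩ a b ha hb
    simp only [Sum.elim_inl, Sum.elim_inr]
    change _ = si (τ (x + a) (y + b)) * si (u x y)
    rcases ha with rfl | rfl <;> rcases hb with rfl | rfl
    · simp only [add_zero]; ring
    · simp only [add_zero]
      have e1 := hd2 (τ x y) (τ x (y + 1)) (u x y)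
      rw [hHb]; linarith
    · simp only [add_zero]
      have e1 := hd2 (τ x y) (τ (x + 1) y) (u x y)
      rw [hHa]; linarith
    · have e1 := hd2 (τ x y) (τ x (y + 1)) (u x y)
      have e2 := hd2 (τ x (y + 1)) (τ (x + 1) (y + 1)) (u x y)
      rw [hHa, hHb, h1]; linarith

end Vale.Agent.P145.Dom
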