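import Vale.Agent.P145.Dom.Bridge

/-!
The spin law in a polygon and the zero boundary heights: the bijection.
-/

namespace Vale.Agent.P145.Dom

open Finset Filter Topology MeasureTheory ProbabilityTheory Vale.Agent.P145.FP
  Vale.Agent.P145.PT

/-- The vertex `v` is a corner of the face `f`. -/
def Cor (v f : ℤ × ℤ) : Prop := (v.1 = f.1 ∨ v.1 = f.1 + 1) ∧ (v.2 = f.2 ∨ v.2 = f.2 + 1)

lemma Cor.exists {v f : ℤ × ℤ} (h : Cor v f) : ∃ a b : ℤ, (a = 0 ∨ a = 1) ∧ (b = 0 ∨ b = 1) ∧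
    v = (f.1 + a, f.2 + b) := by
  obtain ⟨h1, h2⟩ := h
  refine ⟨v.1 - f.1, v.2 - f.2, by omega, by omega, ?_⟩
  ext <;> simp

lemma mem_verts' {F : Finset (ℤ × ℤ)} {v : ℤ × ℤ} : v ∈ verts F ↔ ∃ f ∈ F, Cor v f := by
  rw [mem_verts]
  constructor
  · rintro ⟨f, hf, a, b, ha, hb, rfl⟩
    refine ⟨f, hf, ?_, ?_⟩ <;> simp only <;> omega
  · rintro ⟨f, hf, h⟩
    obtain ⟨a, b, ha, hb, h1⟩ := h.exists
    exact ⟨f, hf, a, b, ha, hb, h1⟩

lemma mem_ZH {F : Finset (ℤ × ℤ)} {x : Site → ℤ} : x ∈ ZH F ↔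
    (∀ v, Even (x (Sum.inl v))) ∧ (∀ f, f ∉ F → x (Sum.inr f) = 0) ∧
    ∀ v f, Cor v f → (f ∉ F → x (Sum.inl v) = 0) ∧
      (f ∈ F → |x (Sum.inr f) - x (Sum.inl v)| = 1) := by
  unfold ZH
  simp only [Set.mem_ofPred_eq]
  refine and_congr Iff.rfl (and_congr Iff.rfl ⟨fun h v f hvf => ?_, fun h f a b ha hb => ?_⟩)
  · obtain ⟨a, b, ha, hb, rfl⟩ := hvf.exists
    exact h f a b ha hb
  · refine h _ f ⟨?_, ?_⟩ <;> simp only <;> omega

/-- A vertex which has a face inside and a face outside of `F` lies on the polygon. -/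
lemma corner_poly {n : ℕ} {p : ZMod n → ℤ × ℤ} {F : Finset (ℤ × ℤ)} (hF : Encloses p F)
    {v f g : ℤ × ℤ} (hf : f ∈ F) (hg : g ∉ F) (hvf : Cor v f) (hvg : Cor v g) :
    ∃ i, p i = v := by
  by_contra hcon
  push Not at hcon
  have n1 : ∀ w, ¬ IsEdge p v w := fun w h => by
    obtain ⟨i, hi⟩ := h.left
    exact hcon i hi
  have n2 : ∀ w, ¬ IsEdge p w v := fun w h => by
    obtain ⟨i, ⟨h1, h2⟩ | ⟨h1, h2⟩⟩ := h
    · exact hcon _ h2
    · exact hcon _ h1
  obtain ⟨x, y⟩ := v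
  have h1 := hF.1 (x, y)
  have h2 := hF.1 (x - 1, y)
  have h3 := hF.2 (x, y)
  simp only [Prod.mk_add_mk, Prod.mk_sub_mk, sub_zero, add_zero, sub_add_cancel] at h1 h2 h3
  have k1 : (x, y) ∈ F ↔ (x, y - 1) ∈ F := by
    by_contra h; exact n1 _ (h1.2 h)
  have k2 : (x - 1, y) ∈ F ↔ (x - 1, y - 1) ∈ F := by
    by_contra h; exact n2 _ (h2.2 h)
  have k3 : (x, y) ∈ F ↔ (x - 1, y) ∈ F := by
    by_contra h; exact n1 _ (h3.2 h)
  have key : ∀ f : ℤ × ℤ, Cor (x, y) f → (f ∈ F ↔ (x, y) ∈ F) := by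
    rintro ⟨a, b⟩ ⟨h4, h5⟩
    simp only at h4 h5
    rcases h4 with h4 | h4 <;> rcases h5 with h5 | h5
    · rw [← h4, ← h5]
    · rw [← h4, show b = y - 1 by omega, k1]
    · rw [show a = x - 1 by omega, ← h5, k3]
    · rw [show a = x - 1 by omega, show b = y - 1 by omega, k3, k2]
  exact hg ((key g hvg).2 ((key f hvf).1 hf))

/-- Every vertex of the polygon has a face outside of `F`. -/
lemma poly_face {n : ℕ} {p : ZMod n → ℤ × ℤ} (hp : IsPolygon p) {F : Finset (ℤ × ℤ)}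
    (hF : Encloses p F) (i : ZMod n) : ∃ g, g ∉ F ∧ Cor (p i) g := by
  have key : ∀ a b : ℤ × ℤ, ¬ (a ∈ F ↔ b ∈ F) → Cor (p i) a → Cor (p i) b →
      ∃ g, g ∉ F ∧ Cor (p i) g := by
    intro a b h1 h2 h3
    by_cases ha : a ∈ F
    · exact ⟨b, by tauto, h3⟩
    · exact ⟨a, ha, h2⟩
  rcases hp.2.2 i with h | h | h | h
  · have h1 := (hF.1 (p i)).1 ⟨i, Or.inl ⟨rfl, by rw [← h]; abel⟩⟩
    refine key _ _ h1 ⟨Or.inl rfl, Or.inl rfl⟩ ⟨?_, ?_⟩ <;> simp
  · have h2 : p (i + 1) + (1, 0) = p i := by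
      have : p i = p (i + 1) - (p (i + 1) - p i) := by abel
      rw [this, h]
      ext <;> simp
    have h1 := (hF.1 (p (i + 1))).1 ⟨i, Or.inr ⟨h2.symm, rfl⟩⟩
    rw [Prod.ext_iff] at h2
    simp only [Prod.fst_add, Prod.snd_add] at h2
    refine key _ _ h1 ⟨?_, ?_⟩ ⟨?_, ?_⟩ <;> (try simp only [Prod.fst_sub, Prod.snd_sub]) <;> omega
  · have h1 := (hF.2 (p i)).1 ⟨i, Or.inl ⟨rfl, by rw [← h]; abel⟩⟩
    refine key _ _ h1 ⟨Or.inl rfl, Or.inl rfl⟩ ⟨?_, ?_⟩ <;> simp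
  · have h2 : p (i + 1) + (0, 1) = p i := by
      have : p i = p (i + 1) - (p (i + 1) - p i) := by abel
      rw [this, h]
      ext <;> simp
    have h1 := (hF.2 (p (i + 1))).1 ⟨i, Or.inr ⟨h2.symm, rfl⟩⟩
    rw [Prod.ext_iff] at h2
    simp only [Prod.fst_add, Prod.snd_add] at h2
    refine key _ _ h1 ⟨?_, ?_⟩ ⟨?_, ?_⟩ <;> (try simp only [Prod.fst_sub, Prod.snd_sub]) <;> omega

/-- The spins of integer heights. -/
def cfx (x : Site → ℤ) : Conf := fun s => sgn2 (x s)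

lemma zh_zero {n : ℕ} {p : ZMod n → ℤ × ℤ} (hp : IsPolygon p) {F : Finset (ℤ × ℤ)}
    (hF : Encloses p F) {x : Site → ℤ} (hx : x ∈ ZH F) {s : Site} (hs : s ∉ free p F) :
    x s = 0 := by
  classical
  rw [mem_ZH] at hx
  unfold free at hs
  rcases s with v | f
  · by_cases hv : v ∈ verts F
    · have h1 : ∃ i, p i = v := by
        by_contra h
        push Not at h
        exact hs (inl_mem_disjSum.2 (mem_filter.2 ⟨hv, h⟩))
      obtain ⟨i, rfl⟩ := h1
      obtain ⟨g, hg, hc⟩ := poly_face hp hF i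
      exact (hx.2.2 _ g hc).1 hg
    · refine (hx.2.2 v v ⟨Or.inl rfl, Or.inl rfl⟩).1 fun h => hv ?_
      exact mem_verts'.2 ⟨v, h, Or.inl rfl, Or.inl rfl⟩
  · exact hx.2.1 f fun h => hs (inr_mem_disjSum.2 h)

lemma not_free_poly {n : ℕ} {p : ZMod n → ℤ × ℤ} {F : Finset (ℤ × ℤ)} (i : ZMod n) :
    (Sum.inl (p i) : Site) ∉ free p F := by
  classical
  intro h
  unfold free at h
  exact (mem_filter.1 (inl_mem_disjSum.1 h)).2 i rfl

/-- The set of sites with negative spin. -/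
noncomputable def neg {n : ℕ} (p : ZMod n → ℤ × ℤ) (F : Finset (ℤ × ℤ)) (x : Site → ℤ) :
    Finset Site := (free p F).filter fun s => sgn2 (x s) = false

lemma neg_subset {n : ℕ} (p : ZMod n → ℤ × ℤ) (F : Finset (ℤ × ℤ)) (x : Site → ℤ) :
    neg p F x ⊆ free p F := filter_subset _ _

lemma conf_neg {n : ℕ} {p : ZMod n → ℤ × ℤ} (hp : IsPolygon p) {F : Finset (ℤ × ℤ)}
    (hF : Encloses p F) {x : Site → ℤ} (hx : x ∈ ZH F) : conf (neg p F x) = cfx x := by
  funext s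
  rw [Bool.eq_iff_iff, conf_eq_true]
  unfold neg cfx
  rw [mem_filter]
  by_cases hs : s ∈ free p F
  · simp [hs]
  · rw [zh_zero hp hF hx hs]
    simp [hs, sgn2]

lemma abs_one {a b : ℤ} (h : |a - b| = 1) : a = b + 1 ∨ a = b - 1 := by
  rcases (abs_eq (by norm_num)).1 h with h | h <;> omega

lemma ew_sgn {t : ℝ} (ht : t ≠ 0) {a b p q : ℤ} (ha : Even a) (hb : Even b) (h1 : |p - a| = 1)
    (h2 : |p - b| = 1) (h3 : |q - a| = 1) (h4 : |q - b| = 1) :
    ew t (sgn2 a) (sgn2 b) (sgn2 p) (sgn2 q) = t * (if a = b ∧ p = q then 1 / t else 1) := by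
  obtain ⟨m, rfl⟩ := ha
  obtain ⟨k, rfl⟩ := hb
  have e1 := abs_one h1
  have e2 := abs_one h2
  have e3 := abs_one h3
  have e4 := abs_one h4
  have i1 : sgn2 (m + m) = sgn2 (k + k) ↔ m + m = k + k := by
    unfold sgn2; rw [decide_eq_decide]; omega
  have i2 : sgn2 p = sgn2 q ↔ p = q := by
    unfold sgn2; rw [decide_eq_decide]; omega
  have i3 : m + m = k + k ∨ p = q := by omega
  unfold ew
  simp only [i1, i2, i3, if_true]
  by_cases c1 : m + m = k + k <;> by_cases c2 : p = q <;> simp [c1, c2, ht] <;> omega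

/-- The number of interior edges. -/
noncomputable def nE (F : Finset (ℤ × ℤ)) : ℕ :=
  (F.filter fun e => e - (0, 1) ∈ F).card + (F.filter fun e => e - (1, 0) ∈ F).card

lemma wt_cfx {t : ℝ} (ht : t ≠ 0) {F : Finset (ℤ × ℤ)} {x : Site → ℤ} (hx : x ∈ ZH F) :
    wt t F (cfx x) = t ^ nE F * zw (1 / t) F x := by
  rw [mem_ZH] at hx
  obtain ⟨he, -, hc⟩ := hx
  unfold wt zw nE
  rw [pow_add, mul_mul_mul_comm, ← prod_const, ← prod_const, ← prod_mul_distrib,
    ← prod_mul_distrib]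
  congr 1
  · refine prod_congr rfl fun e hmem => ?_
    obtain ⟨h1, h2⟩ := mem_filter.1 hmem
    have h3 : e - (0, 1) = (e.1, e.2 - 1) := by ext <;> simp
    rw [h3] at h2
    refine ew_sgn ht (he _) (he _) ((hc _ _ ⟨?_, ?_⟩).2 h1) ((hc _ _ ⟨?_, ?_⟩).2 h1)
      ((hc _ _ ⟨?_, ?_⟩).2 h2) ((hc _ _ ⟨?_, ?_⟩).2 h2) <;> simp
  · refine prod_congr rfl fun e hmem => ?_
    obtain ⟨h1, h2⟩ := mem_filter.1 hmem
    have h3 : e - (1, 0) = (e.1 - 1, e.2) := by ext <;> simp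
    rw [h3] at h2
    refine ew_sgn ht (he _) (he _) ((hc _ _ ⟨?_, ?_⟩).2 h1) ((hc _ _ ⟨?_, ?_⟩).2 h1)
      ((hc _ _ ⟨?_, ?_⟩).2 h2) ((hc _ _ ⟨?_, ?_⟩).2 h2) <;> simp

lemma si_mul {a p : ℤ} (ha : Even a) (h : |p - a| = 1) : p - a = si (sgn2 a) * si (sgn2 p) := by
  obtain ⟨m, rfl⟩ := ha
  have e1 := abs_one h
  unfold si sgn2
  by_cases c1 : (m + m) / 2 % 2 = 0 <;> by_cases c2 : p / 2 % 2 = 0 <;> simp [c1, c2] <;> omega

lemma isHt_cfx {n : ℕ} {p : ZMod n → ℤ × ℤ} (hp : IsPolygon p) {F : Finset (ℤ × ℤ)}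
    (hF : Encloses p F) {x : Site → ℤ} (hx : x ∈ ZH F) :
    IsHt p F (cfx x) (fun s => (x s : ℝ) / 2) := by
  refine ⟨fun i => ?_, fun f hf a b ha hb => ?_⟩
  · simp [zh_zero hp hF hx (not_free_poly i)]
  · have hx' := mem_ZH.1 hx
    have h1 := (hx'.2.2 (f.1 + a, f.2 + b) f (by constructor <;> simp only <;> omega)).2 hf
    have h2 := si_mul (hx'.1 _) h1
    simp only [cfx, sp_si]
    have h3 : ((x (Sum.inr f) : ℝ) - x (Sum.inl (f.1 + a, f.2 + b))) =
        si (sgn2 (x (Sum.inl (f.1 + a, f.2 + b)))) * si (sgn2 (x (Sum.inr f))) := by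
      exact_mod_cast h2
    linarith

lemma cfx_inj {n : ℕ} {p : ZMod n → ℤ × ℤ} (hp : IsPolygon p) {F : Finset (ℤ × ℤ)}
    (hF : Encloses p F) {x y : Site → ℤ} (hx : x ∈ ZH F) (hy : y ∈ ZH F) (h : cfx x = cfx y) :
    x = y := by
  classical
  have h1 := isHt_cfx hp hF hx
  have h2 := isHt_cfx hp hF hy
  rw [← h] at h2
  funext s
  by_cases hs : s ∈ free p F
  · unfold free at hs
    rcases s with v | f
    · have h3 := IsHt.unique hF h1 h2 (mem_filter.1 (inl_mem_disjSum.1 hs)).1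
      have h4 : (x (Sum.inl v) : ℝ) = y (Sum.inl v) := by linarith
      exact_mod_cast h4
    · have h3 := IsHt.unique_face hF h1 h2 (inr_mem_disjSum.1 hs)
      have h4 : (x (Sum.inr f) : ℝ) = y (Sum.inr f) := by linarith
      exact_mod_cast h4
  · rw [zh_zero hp hF hx hs, zh_zero hp hF hy hs]

/-- Every configuration of positive weight comes from zero boundary heights. -/
lemma exists_zh {t : ℝ} {n : ℕ} {p : ZMod n → ℤ × ℤ} (hp : IsPolygon p) {F : Finset (ℤ × ℤ)}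
    (hF : Encloses p F) {S : Finset Site} (hS : S ⊆ free p F) (h0 : wt t F (conf S) ≠ 0) :
    ∃ x ∈ ZH F, neg p F x = S := by
  classical
  obtain ⟨x, hx0, hev, hsg, hco⟩ := exists_int (p 0) (conf_poly hS 0) (constr_h hF hS h0)
    (constr_v hF hS h0)
  have hH : IsHeight (conf S) (fun s => (x s : ℝ) / 2) := by
    intro f a b ha hb
    have h1 := hco f a b ha hb
    rw [sp_si, sp_si]
    have h2 : ((x (Sum.inr f) : ℝ) - x (Sum.inl (f.1 + a, f.2 + b))) =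
        si (conf S (Sum.inl (f.1 + a, f.2 + b))) * si (conf S (Sum.inr f)) := by
      exact_mod_cast h1
    simp only
    linarith
  have hpoly : ∀ i, x (Sum.inl (p i)) = 0 := by
    intro i
    have h1 := poly_const hH hp (conf_poly hS) i
    simp only [hx0] at h1
    have h2 : (x (Sum.inl (p i)) : ℝ) = 0 := by
      have : ((0 : ℤ) : ℝ) / 2 = 0 := by norm_num
      rw [this] at h1
      linarith
    exact_mod_cast h2
  set y : Site → ℤ := Sum.elim (fun v => if v ∈ verts F then x (Sum.inl v) else 0)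
    (fun f => if f ∈ F then x (Sum.inr f) else 0) with hy
  refine ⟨y, ?_, ?_⟩
  · rw [mem_ZH]
    refine ⟨fun v => ?_, fun f hf => ?_, fun v f hvf => ⟨fun hf => ?_, fun hf => ?_⟩⟩
    · simp only [hy, Sum.elim_inl]
      split_ifs
      · exact hev v
      · exact Even.zero
    · simp [hy, hf]
    · simp only [hy, Sum.elim_inl]
      split_ifs with hv
      · obtain ⟨g, hg, hvg⟩ := mem_verts'.1 hv
        obtain ⟨i, rfl⟩ := corner_poly hF hg hf hvg hvf
        exact hpoly i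
      · rfl
    · have hv : v ∈ verts F := mem_verts'.2 ⟨f, hf, hvf⟩
      simp only [hy, Sum.elim_inl, Sum.elim_inr, hf, hv, if_true]
      obtain ⟨a, b, ha, hb, rfl⟩ := hvf.exists
      rw [hco f a b ha hb]
      rcases si_cases (conf S (Sum.inl (f.1 + a, f.2 + b))) with ⟨_, h1⟩ | ⟨_, h1⟩ <;>
        rcases si_cases (conf S (Sum.inr f)) with ⟨_, h2⟩ | ⟨_, h2⟩ <;> rw [h1, h2] <;> norm_num
  · ext s
    unfold neg
    rw [mem_filter]
    have key : s ∈ free p F → y s = x s := by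
      intro hs
      unfold free at hs
      rcases s with v | f
      · have := (mem_filter.1 (inl_mem_disjSum.1 hs)).1
        simp [hy, this]
      · have := inr_mem_disjSum.1 hs
        simp [hy, this]
    constructor
    · rintro ⟨h1, h2⟩
      rw [key h1, hsg] at h2
      by_contra h3
      rw [conf_eq_true.2 h3] at h2
      exact Bool.noConfusion h2
    · intro h1
      refine ⟨hS h1, ?_⟩
      rw [key (hS h1), hsg]
      have : ¬ conf S s = true := fun h => conf_eq_true.1 h h1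
      simpa using this

end Vale.Agent.P145.Dom
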