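import Vale.Agent.P145.Dom.BridgeB

/-!
The spin law in a polygon and the zero boundary heights: expectations.
-/

namespace Vale.Agent.P145.Dom

open Finset Filter Topology MeasureTheory ProbabilityTheory Vale.Agent.P145.FP
  Vale.Agent.P145.PT

lemma cor_self (f : ℤ × ℤ) : Cor f f := ⟨Or.inl rfl, Or.inl rfl⟩

lemma exists_left (F : Finset (ℤ × ℤ)) : ∃ M : ℕ, ∀ f : ℤ × ℤ, ∃ k : ℕ, k ≤ M ∧
    (f.1 - (k : ℤ), f.2) ∉ F := by
  refine ⟨F.card, fun f => ?_⟩
  by_contra hcon
  push Not at hcon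
  have h1 : Set.InjOn (fun k : ℕ => (f.1 - (k : ℤ), f.2)) (range (F.card + 1) : Finset ℕ) := by
    intro a _ b _ hab
    simp only [Prod.mk.injEq, and_true] at hab
    omega
  have h2 := card_le_card_of_injOn (s := range (F.card + 1)) (t := F)
    (fun k : ℕ => (f.1 - (k : ℤ), f.2))
    (fun k hk => hcon k (by have := mem_range.1 hk; omega)) h1
  rw [card_range] at h2
  omega

lemma ZH_bound {F : Finset (ℤ × ℤ)} {x : Site → ℤ} (hx : x ∈ ZH F) (k : ℕ) :
    ∀ f : ℤ × ℤ, (f.1 - (k : ℤ), f.2) ∉ F → |x (Sum.inr f)| ≤ 2 * k ∧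
      |x (Sum.inl f)| ≤ 2 * k := by
  rw [mem_ZH] at hx
  obtain ⟨-, h0, hc⟩ := hx
  induction k with
  | zero =>
    intro f hf
    have hf' : f ∉ F := by simpa using hf
    rw [h0 f hf', (hc f f (cor_self f)).1 hf']
    simp
  | succ k ih =>
    intro f hf
    have h1 : ((f.1 - 1) - (k : ℤ), f.2) ∉ F := by
      have : ((f.1 - 1) - (k : ℤ), f.2) = (f.1 - ((k + 1 : ℕ) : ℤ), f.2) := by
        push_cast; congr 1; ring
      rwa [this]
    obtain ⟨h2, h3⟩ := ih (f.1 - 1, f.2) h1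
    have hcor : Cor f (f.1 - 1, f.2) := ⟨by simp, by simp⟩
    have h4 : |x (Sum.inl f)| ≤ 2 * k + 1 := by
      by_cases hg : (f.1 - 1, f.2) ∈ F
      · have h5 := (hc f _ hcor).2 hg
        rw [abs_le] at h2 ⊢
        rcases abs_one h5 with h6 | h6 <;> constructor <;> omega
      · rw [(hc f _ hcor).1 hg]; simp; positivity
    refine ⟨?_, by push_cast; omega⟩
    by_cases hf' : f ∈ F
    · have h5 := (hc f f (cor_self f)).2 hf'
      rw [abs_le] at h4 ⊢
      push_cast
      rcases abs_one h5 with h6 | h6 <;> constructor <;> omega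
    · rw [h0 f hf']; simp; positivity

theorem ZH_finite (F : Finset (ℤ × ℤ)) : (ZH F).Finite := by
  classical
  obtain ⟨M, hM⟩ := exists_left F
  have hb : ∀ x ∈ ZH F, ∀ s, |x s| ≤ 2 * M := by
    intro x hx s
    rcases s with v | f
    · obtain ⟨k, hk, h⟩ := hM v
      have := (ZH_bound hx k v h).2
      omega
    · obtain ⟨k, hk, h⟩ := hM f
      have := (ZH_bound hx k f h).1
      omega
  set T : Finset Site := (verts F).disjSum F with hT
  have hz : ∀ x ∈ ZH F, ∀ s ∉ T, x s = 0 := by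
    intro x hx s hs
    rw [mem_ZH] at hx
    rcases s with v | f
    · have hv : v ∉ verts F := fun h => hs (inl_mem_disjSum.2 h)
      exact (hx.2.2 v v (cor_self v)).1 fun h => hv (mem_verts'.2 ⟨v, h, cor_self v⟩)
    · exact hx.2.1 f fun h => hs (inr_mem_disjSum.2 h)
  have hfin : (Set.pi Set.univ fun _ : T => Set.Icc (-(2 * (M : ℤ))) (2 * M)).Finite :=
    Set.Finite.pi fun _ => Set.finite_Icc _ _
  refine Set.Finite.of_injOn (f := fun (x : Site → ℤ) (s : T) => x s) ?_ ?_ hfin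
  · intro x hx
    simp only [Set.mem_pi, Set.mem_univ, forall_const, Set.mem_Icc]
    intro s
    exact abs_le.1 (hb x hx s)
  · intro x hx y hy hxy
    funext s
    by_cases hs : s ∈ T
    · exact congrFun hxy ⟨s, hs⟩
    · rw [hz x hx s hs, hz y hy s hs]

/-- The bijection between the spin configurations of positive weight and the zero boundary
heights, as an identity of weighted sums. -/
theorem sum_conf {t : ℝ} (ht : 0 < t) {n : ℕ} {p : ZMod n → ℤ × ℤ} (hp : IsPolygon p)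
    {F : Finset (ℤ × ℤ)} (hF : Encloses p F) (Ψ : Conf → ℝ) :
    ∑ S ∈ (free p F).powerset, wt t F (conf S) * Ψ (conf S) =
      t ^ nE F * zs (1 / t) F (fun x => Ψ (cfx x)) := by
  classical
  unfold zs
  rw [finsum_mem_eq_finite_toFinset_sum _ (ZH_finite F), mul_sum]
  symm
  refine sum_of_injOn (neg p F) ?_ ?_ ?_ ?_
  · intro x hx y hy hxy
    rw [Finset.mem_coe, Set.Finite.mem_toFinset] at hx hy
    refine cfx_inj hp hF hx hy ?_
    rw [← conf_neg hp hF hx, ← conf_neg hp hF hy, hxy]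
  · intro x _
    exact mem_coe.2 (mem_powerset.2 (neg_subset p F x))
  · intro S hS hni
    by_contra h
    have h0 : wt t F (conf S) ≠ 0 := fun h0 => h (by rw [h0, zero_mul])
    obtain ⟨x, hx, hxS⟩ := exists_zh hp hF (mem_powerset.1 hS) h0
    exact hni ⟨x, by rw [Finset.mem_coe, Set.Finite.mem_toFinset]; exact hx, hxS⟩
  · intro x hx
    rw [Set.Finite.mem_toFinset] at hx
    rw [conf_neg hp hF hx, wt_cfx ht.ne' hx]
    ring

/-- **(D3)** Expectations under the law of the height representation are expectations under the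
zero boundary law of the heights. -/
theorem law_ze {t : ℝ} (ht : 0 < t) {n : ℕ} {p : ZMod n → ℤ × ℤ} (hp : IsPolygon p)
    {F : Finset (ℤ × ℤ)} (hF : Encloses p F) (Ψ : Conf → ℝ) :
    ∫ σ, Ψ σ ∂law t p F = ze (1 / t) F (fun x => Ψ (cfx x)) := by
  rw [law_integral ht.le]
  have h1 := sum_conf ht hp hF Ψ
  have h2 := sum_conf ht hp hF (fun _ => 1)
  simp only [mul_one] at h2
  have h3 : ∀ Z : ℝ, ∑ S ∈ (free p F).powerset, (wt t F (conf S) / Z) • Ψ (conf S) =
      (∑ S ∈ (free p F).powerset, wt t F (conf S) * Ψ (conf S)) / Z := by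
    intro Z
    rw [sum_div]
    refine sum_congr rfl fun S _ => ?_
    rw [smul_eq_mul]; ring
  rw [h3, h1, h2]
  unfold ze
  rw [mul_div_mul_left _ _ (pow_ne_zero _ ht.ne')]

/-- The zero boundary partition function is positive. -/
theorem zs_pos {c : ℝ} (hc : 0 < c) {n : ℕ} {p : ZMod n → ℤ × ℤ} (hp : IsPolygon p)
    {F : Finset (ℤ × ℤ)} (hF : Encloses p F) : 0 < zs c F (fun _ => 1) := by
  have h2 := sum_conf (t := 1 / c) (by positivity) hp hF (fun _ => 1)
  simp only [mul_one, one_div_one_div] at h2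
  have h3 := Z_pos (t := 1 / c) (by positivity) p F
  rw [h2] at h3
  exact pos_of_mul_pos_right h3 (by positivity)

/-- Moments of the rescaled height function. -/
theorem law_mom {t : ℝ} (ht : 0 < t) {n : ℕ} {p : ZMod n → ℤ × ℤ} (hp : IsPolygon p)
    {F : Finset (ℤ × ℤ)} (hF : Encloses p F) {H : Conf → Site → ℝ}
    (hH : ∀ᵐ σ ∂law t p F, IsHt p F σ (H σ)) (δ : ℝ) {ι : Type*} (s : Finset ι)
    (φ : ι → ℝ × ℝ → ℝ) :
    ∫ σ, ∏ i ∈ s, fldD F (H σ) δ (φ i) ∂law t p F = ze (1 / t) F (fun x => ∏ i ∈ s, zf F δ (φ i) x) := by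
  classical
  have h1 : ∀ x ∈ ZH F, IsHt p F (cfx x) (H (cfx x)) := by
    intro x hx
    rw [← conf_neg hp hF hx]
    refine of_law_ae ht.le hH (neg_subset p F x) ?_
    rw [conf_neg hp hF hx, wt_cfx ht.ne' hx]
    refine mul_ne_zero (pow_ne_zero _ ht.ne') ?_
    unfold zw
    refine mul_ne_zero (prod_ne_zero_iff.2 fun e _ => ?_) (prod_ne_zero_iff.2 fun e _ => ?_) <;>
      split_ifs <;> positivity
  rw [law_ze ht hp hF]
  unfold ze zs
  congr 1
  refine finsum_mem_congr rfl fun x hx => ?_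
  congr 1
  refine prod_congr rfl fun i _ => ?_
  exact IsHt.fldD_eq hF (h1 x hx) (isHt_cfx hp hF hx) δ (φ i)

end Vale.Agent.P145.Dom
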