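import Vale.Agent.P145.FP.Defs
import Vale.Agent.P145.PT.Defs

/-!
Definitions for the scaling limit of the critical Ashkin-Teller height function in bounded Jordan
domains: lattice polygons, the height representation in the domain enclosed by a polygon, and
its rescaled height function.
-/

namespace Vale.Agent.P145.Dom

open Finset Filter Topology MeasureTheory ProbabilityTheory Vale.Agent.P145.FP
  Vale.Agent.P145.PT

/-- A bounded Jordan domain: the image of the open unit disc under a homeomorphism of the plane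
(by the theorem of Schoenflies these are exactly the interiors of Jordan curves). -/
def JordanDomain (D : Set (ℝ × ℝ)) : Prop :=
  ∃ Φ : (ℝ × ℝ) ≃ₜ (ℝ × ℝ), D = Φ '' {z | z.1 ^ 2 + z.2 ^ 2 < 1}

/-- A simple closed lattice polygon: a closed path `p 0, p 1, …, p (n - 1), p 0` of `ℤ²` with steps
of length one and without repeated vertices. -/
def IsPolygon {n : ℕ} (p : ZMod n → ℤ × ℤ) : Prop :=
  3 < n ∧ Function.Injective p ∧
    ∀ i, p (i + 1) - p i = (1, 0) ∨ p (i + 1) - p i = (-1, 0) ∨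
      p (i + 1) - p i = (0, 1) ∨ p (i + 1) - p i = (0, -1)

/-- The edge between the lattice points `a` and `b` is an edge of the polygon `p`. -/
def IsEdge {n : ℕ} (p : ZMod n → ℤ × ℤ) (a b : ℤ × ℤ) : Prop :=
  ∃ i, (p i = a ∧ p (i + 1) = b) ∨ (p i = b ∧ p (i + 1) = a)

/-- The finite set `F` of faces (unit squares, given by their bottom-left corners) is the set of
the faces enclosed by the polygon `p`: the edges of `p` are exactly the edges of the lattice with
exactly one of their two sides in `F`. The horizontal edge from `e` to `e + (1, 0)` separates the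
faces `e` and `e - (0, 1)`; the vertical edge from `e` to `e + (0, 1)` separates the faces `e` and
`e - (1, 0)`. -/
def Encloses {n : ℕ} (p : ZMod n → ℤ × ℤ) (F : Finset (ℤ × ℤ)) : Prop :=
  (∀ e : ℤ × ℤ, IsEdge p e (e + (1, 0)) ↔ ¬ (e ∈ F ↔ e - (0, 1) ∈ F)) ∧
  (∀ e : ℤ × ℤ, IsEdge p e (e + (0, 1)) ↔ ¬ (e ∈ F ↔ e - (1, 0) ∈ F))

/-- The vertices of the graph of the polygon: the corners of the enclosed faces. -/
def verts (F : Finset (ℤ × ℤ)) : Finset (ℤ × ℤ) :=
  F ∪ F.image (· + (1, 0)) ∪ F.image (· + (0, 1)) ∪ F.image (· + (1, 1))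

/-- The free sites: the vertices that are not on the polygon `p`, and the enclosed faces. -/
noncomputable def free {n : ℕ} (p : ZMod n → ℤ × ℤ) (F : Finset (ℤ × ℤ)) : Finset Site :=
  by classical exact ((verts F).filter (fun v => ∀ i, p i ≠ v)).disjSum F

/-- The spin configuration with the spin `-1` exactly at the sites of `S`. -/
noncomputable def conf (S : Finset Site) : Conf := fun x => by classical exact decide (x ∉ S)

/-- The weight of a spin configuration: the product, over all interior edges (both sides enclosed),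
of the weights `FP.ew`; it is zero if the constraint is violated, and otherwise it is
`t ^ (N(τ) + N(τ†))`. -/
noncomputable def wt (t : ℝ) (F : Finset (ℤ × ℤ)) (σ : Conf) : ℝ :=
  (∏ e ∈ F with e - (0, 1) ∈ F, hw t σ e) * ∏ e ∈ F with e - (1, 0) ∈ F, vw t σ e

/-- The height representation in the domain enclosed by `p`: the probability measure on the spin
configurations `(τ, τ†)` with `τ = 1` on `p` (and all spins equal to `1` outside) with
probabilities proportional to the weights. -/
noncomputable def law (t : ℝ) {n : ℕ} (p : ZMod n → ℤ × ℤ) (F : Finset (ℤ × ℤ)) : Measure Conf :=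
  ∑ S ∈ (free p F).powerset, ENNReal.ofReal
    (wt t F (conf S) / ∑ S' ∈ (free p F).powerset, wt t F (conf S')) • Measure.dirac (conf S)

/-- `H` is the height function of `(τ, τ†)`: it is `0` on the polygon, and
`H(f) - H(v) = τ(v) τ†(f) / 2` whenever the vertex `v` is a corner of the enclosed face `f`. -/
def IsHt {n : ℕ} (p : ZMod n → ℤ × ℤ) (F : Finset (ℤ × ℤ)) (σ : Conf) (H : Site → ℝ) : Prop :=
  (∀ i, H (Sum.inl (p i)) = 0) ∧
  ∀ f ∈ F, ∀ a b : ℤ, (a = 0 ∨ a = 1) → (b = 0 ∨ b = 1) →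
    H (Sum.inr f) - H (Sum.inl (f.1 + a, f.2 + b)) =
      1 / 2 * sp (σ (Sum.inl (f.1 + a, f.2 + b))) * sp (σ (Sum.inr f))

/-- `H_δ(φ) = δ² ∑_v H(v) φ(δ v)`, the sum being over the vertices of the graph. -/
noncomputable def fldD (F : Finset (ℤ × ℤ)) (H : Site → ℝ) (δ : ℝ) (φ : ℝ × ℝ → ℝ) : ℝ :=
  δ ^ 2 * ∑ v ∈ verts F, H (Sum.inl v) * φ (δ * v.1, δ * v.2)

/-- `⟨φ, (-Δ_D)⁻¹ ψ⟩`, by polarisation of the quadratic form `PT.V`. -/
noncomputable def dirCov (D : Set (ℝ × ℝ)) (φ ψ : ℝ × ℝ → ℝ) : ℝ :=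
  (V D (fun z => φ z + ψ z) - V D (fun z => φ z - ψ z)) / 4

/-- Lattice polygons `p n` of mesh `δ n → 0` approximating the domain `D`: the vertices of the
polygons are eventually within any given distance of `D`, and every compact subset of `D` is
eventually enclosed. (The first condition follows from the uniform convergence of the boundary
curves.) -/
structure Approx (D : Set (ℝ × ℝ)) (δ : ℕ → ℝ) (N : ℕ → ℕ) (p : ∀ n, ZMod (N n) → ℤ × ℤ)
    (F : ℕ → Finset (ℤ × ℤ)) : Prop where
  pos : ∀ n, 0 < δ n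
  lim : Tendsto δ atTop (𝓝 0)
  poly : ∀ n, IsPolygon (p n)
  encl : ∀ n, Encloses (p n) (F n)
  near : ∀ ε > 0, ∀ᶠ n in atTop, ∀ i, ∃ z ∈ D, dist (δ n * (p n i).1, δ n * (p n i).2) z < ε
  cpt : ∀ K ⊆ D, IsCompact K → ∀ᶠ n in atTop, ∀ z ∈ K, (⌊z.1 / δ n⌋, ⌊z.2 / δ n⌋) ∈ F n

/-- The conclusion: convergence in law of the height function, tested against finitely many test
functions, to the centred Gaussian vector whose covariance is `s²` times that of the Gaussian free
field with covariance `2π (-Δ_D)⁻¹`. -/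
def Conv (t s : ℝ) (D : Set (ℝ × ℝ)) : Prop :=
  ∀ (δ : ℕ → ℝ) (N : ℕ → ℕ) (p : ∀ n, ZMod (N n) → ℤ × ℤ) (F : ℕ → Finset (ℤ × ℤ)),
    Approx D δ N p F →
    ∃ _ : ∀ n, IsProbabilityMeasure (law t (p n) (F n)),
      (∀ n, ∀ᵐ σ ∂law t (p n) (F n), ∃ H, IsHt (p n) (F n) σ H) ∧
      ∀ H : ∀ _ : ℕ, Conf → Site → ℝ, (∀ n, ∀ᵐ σ ∂law t (p n) (F n), IsHt (p n) (F n) σ (H n σ)) →
      ∀ (k : ℕ) (φ : Fin k → ℝ × ℝ → ℝ), (∀ j, TestOn D (φ j)) →
        (Matrix.of (fun i j => s ^ 2 * (2 * Real.pi * dirCov D (φ i) (φ j)))).PosSemidef ∧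
        TendstoInDistribution (fun (n : ℕ) (σ : Conf) =>
          (WithLp.toLp 2 (fun j => fldD (F n) (H n σ) (δ n) (φ j)) : EuclideanSpace ℝ (Fin k)))
          atTop (id : EuclideanSpace ℝ (Fin k) → EuclideanSpace ℝ (Fin k))
          (fun n => law t (p n) (F n))
          (multivariateGaussian 0
            (Matrix.of (fun i j => s ^ 2 * (2 * Real.pi * dirCov D (φ i) (φ j)))))

/-- The statement for `U < 0`: for every point `(J, U)` of the self-dual line with `U < 0`,
and every Jordan domain, `H_δ → h / (π √g)`. -/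
def Main : Prop :=
  ∀ J U : ℝ, 0 < J → U < 0 → Real.sinh (2 * J) = Real.exp (-2 * U) →
    ∀ t g : ℝ, t = (1 + Real.exp (4 * U)) ^ (-(1 / 2) : ℝ) →
      g = 8 / Real.pi * Real.arcsin (√(1 + Real.exp (4 * U)) / 2) →
      ∀ D : Set (ℝ × ℝ), JordanDomain D → Conv t (1 / (Real.pi * √g)) D

end Vale.Agent.P145.Dom
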