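import Vale.Agent.P145.Dom.BridgeB
import Vale.Agent.P145.PT.Poly

/-!
Lattice polygons as subsets of the plane: the squares enclosed by a polygon are enclosed by its
trace in the topological sense.
-/

namespace Vale.Agent.P145.Dom

open Set Filter Topology Metric Vale.Agent.P145.PT

/-- The closed square of mesh `δ` with bottom-left corner `δ f`. -/
def sq (δ : ℝ) (f : ℤ × ℤ) : Set (ℝ × ℝ) :=
  {z | (δ * f.1 ≤ z.1 ∧ z.1 ≤ δ * (f.1 + 1)) ∧ (δ * f.2 ≤ z.2 ∧ z.2 ≤ δ * (f.2 + 1))}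

/-- The lattice point of mesh `δ`. -/
def pt (δ : ℝ) (v : ℤ × ℤ) : ℝ × ℝ := (δ * v.1, δ * v.2)

/-- The polygon as a subset of the plane. -/
def trace (δ : ℝ) {n : ℕ} (p : ZMod n → ℤ × ℤ) : Set (ℝ × ℝ) :=
  ⋃ i, segment ℝ (pt δ (p i)) (pt δ (p (i + 1)))

/-- The points all whose squares belong to `F`. -/
def inn (δ : ℝ) (F : Finset (ℤ × ℤ)) : Set (ℝ × ℝ) := {z | ∀ g, z ∈ sq δ g → g ∈ F}

/-- The points none of whose squares belongs to `F`. -/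
def out (δ : ℝ) (F : Finset (ℤ × ℤ)) : Set (ℝ × ℝ) := {z | ∀ g, z ∈ sq δ g → g ∉ F}

lemma mem_sq_floor {δ : ℝ} (hδ : 0 < δ) (z : ℝ × ℝ) : z ∈ sq δ (⌊z.1 / δ⌋, ⌊z.2 / δ⌋) := by
  have h1 := Int.floor_le (z.1 / δ)
  have h2 := (Int.lt_floor_add_one (z.1 / δ)).le
  have h3 := Int.floor_le (z.2 / δ)
  have h4 := (Int.lt_floor_add_one (z.2 / δ)).le
  rw [le_div_iff₀ hδ] at h1 h3
  rw [div_le_iff₀ hδ] at h2 h4
  refine ⟨⟨?_, ?_⟩, ?_, ?_⟩ <;> simp only <;> linarith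

lemma near_one {δ : ℝ} (hδ : 0 < δ) (x : ℝ) : ∃ ρ > 0, ∀ y, |y - x| < ρ → ∀ m : ℤ,
    δ * m ≤ y → y ≤ δ * (m + 1) → δ * m ≤ x ∧ x ≤ δ * (m + 1) := by
  set a := ⌊x / δ⌋ with ha
  set b := ⌈x / δ⌉ with hb
  have a1 : δ * a ≤ x := by
    have := Int.floor_le (x / δ)
    rw [le_div_iff₀ hδ] at this
    linarith
  have a2 : x < δ * (a + 1) := by
    have := Int.lt_floor_add_one (x / δ)
    rw [div_lt_iff₀ hδ] at this
    linarith
  have b1 : x ≤ δ * b := by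
    have := Int.le_ceil (x / δ)
    rw [div_le_iff₀ hδ] at this
    linarith
  have b2 : δ * (b - 1) < x := by
    have := Int.ceil_lt_add_one (x / δ)
    have h : (b : ℝ) - 1 < x / δ := by linarith
    rw [lt_div_iff₀ hδ] at h
    linarith
  refine ⟨min (δ * (a + 1) - x) (x - δ * (b - 1)), lt_min (by linarith) (by linarith), ?_⟩
  intro y hy m h1 h2
  rw [lt_min_iff, abs_lt, abs_lt] at hy
  obtain ⟨⟨-, h3⟩, h4, -⟩ := hy
  constructor
  · have h5 : δ * m < δ * (a + 1) := by linarith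
    have h6 : (m : ℝ) < a + 1 := lt_of_mul_lt_mul_left h5 hδ.le
    have h7 : m ≤ a := by
      have : m < a + 1 := by exact_mod_cast h6
      omega
    have h8 : (m : ℝ) ≤ a := by exact_mod_cast h7
    nlinarith
  · have h5 : δ * (b - 1) < δ * (m + 1) := by linarith
    have h6 : (b : ℝ) - 1 < m + 1 := lt_of_mul_lt_mul_left h5 hδ.le
    have h7 : b ≤ m + 1 := by
      have : b - 1 < m + 1 := by exact_mod_cast h6
      omega
    have h8 : (b : ℝ) ≤ m + 1 := by exact_mod_cast h7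
    nlinarith

lemma near_sq {δ : ℝ} (hδ : 0 < δ) (z : ℝ × ℝ) : ∃ ρ > 0, ∀ w, dist w z < ρ →
    ∀ g, w ∈ sq δ g → z ∈ sq δ g := by
  obtain ⟨ρ₁, h1, h2⟩ := near_one hδ z.1
  obtain ⟨ρ₂, h3, h4⟩ := near_one hδ z.2
  refine ⟨min ρ₁ ρ₂, lt_min h1 h3, fun w hw g hg => ?_⟩
  rw [Prod.dist_eq, max_lt_iff, Real.dist_eq, Real.dist_eq, lt_min_iff, lt_min_iff] at hw
  exact ⟨h2 _ hw.1.1 _ hg.1.1 hg.1.2, h4 _ hw.2.2 _ hg.2.1 hg.2.2⟩

lemma isOpen_inn {δ : ℝ} (hδ : 0 < δ) (F : Finset (ℤ × ℤ)) : IsOpen (inn δ F) := by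
  rw [Metric.isOpen_iff]
  intro z hz
  obtain ⟨ρ, hρ, h⟩ := near_sq hδ z
  exact ⟨ρ, hρ, fun w hw g hg => hz g (h w hw g hg)⟩

lemma isOpen_out {δ : ℝ} (hδ : 0 < δ) (F : Finset (ℤ × ℤ)) : IsOpen (out δ F) := by
  rw [Metric.isOpen_iff]
  intro z hz
  obtain ⟨ρ, hρ, h⟩ := near_sq hδ z
  exact ⟨ρ, hρ, fun w hw g hg => hz g (h w hw g hg)⟩

lemma disjoint_inn_out {δ : ℝ} (hδ : 0 < δ) (F : Finset (ℤ × ℤ)) :
    Disjoint (inn δ F) (out δ F) := by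
  rw [Set.disjoint_left]
  intro z h1 h2
  exact h2 _ (mem_sq_floor hδ z) (h1 _ (mem_sq_floor hδ z))

variable {n : ℕ} {p : ZMod n → ℤ × ℤ} {F : Finset (ℤ × ℤ)} {δ : ℝ} {z : ℝ × ℝ}

lemma trace_of_edge {a b : ℤ × ℤ} (h : IsEdge p a b) (hz : z ∈ segment ℝ (pt δ a) (pt δ b)) :
    z ∈ trace δ p := by
  obtain ⟨i, ⟨h1, h2⟩ | ⟨h1, h2⟩⟩ := h
  · exact mem_iUnion.2 ⟨i, by rw [h1, h2]; exact hz⟩
  · exact mem_iUnion.2 ⟨i, by rw [h1, h2, segment_symm]; exact hz⟩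

lemma mem_seg_h (hδ : 0 < δ) {e : ℤ × ℤ} (h1 : z.2 = δ * e.2) (h2 : δ * e.1 ≤ z.1)
    (h3 : z.1 ≤ δ * (e.1 + 1)) : z ∈ segment ℝ (pt δ e) (pt δ (e + (1, 0))) := by
  refine ⟨1 - (z.1 / δ - e.1), z.1 / δ - e.1, ?_, ?_, by ring, ?_⟩
  · have : z.1 / δ ≤ e.1 + 1 := by rw [div_le_iff₀ hδ]; linarith
    linarith
  · have : (e.1 : ℝ) ≤ z.1 / δ := by rw [le_div_iff₀ hδ]; linarith
    linarith
  · refine Prod.ext ?_ ?_
    · simp only [pt, Prod.fst_add, Prod.smul_fst, smul_eq_mul]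
      push_cast
      field_simp
      ring
    · simp only [pt, Prod.snd_add, Prod.smul_snd, smul_eq_mul, add_zero]
      rw [h1]; ring

lemma mem_seg_v (hδ : 0 < δ) {e : ℤ × ℤ} (h1 : z.1 = δ * e.1) (h2 : δ * e.2 ≤ z.2)
    (h3 : z.2 ≤ δ * (e.2 + 1)) : z ∈ segment ℝ (pt δ e) (pt δ (e + (0, 1))) := by
  refine ⟨1 - (z.2 / δ - e.2), z.2 / δ - e.2, ?_, ?_, by ring, ?_⟩
  · have : z.2 / δ ≤ e.2 + 1 := by rw [div_le_iff₀ hδ]; linarith
    linarith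
  · have : (e.2 : ℝ) ≤ z.2 / δ := by rw [le_div_iff₀ hδ]; linarith
    linarith
  · refine Prod.ext ?_ ?_
    · simp only [pt, Prod.fst_add, Prod.smul_fst, smul_eq_mul, add_zero]
      rw [h1]; ring
    · simp only [pt, Prod.snd_add, Prod.smul_snd, smul_eq_mul]
      push_cast
      field_simp
      ring

/-- A point which lies in an inner and in an outer square lies on the polygon. -/
lemma mem_trace (hδ : 0 < δ) (hF : Encloses p F) {f g : ℤ × ℤ} (hf : f ∈ F) (hg : g ∉ F)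
    (hzf : z ∈ sq δ f) (hzg : z ∈ sq δ g) : z ∈ trace δ p := by
  obtain ⟨f1, f2⟩ := f
  obtain ⟨g1, g2⟩ := g
  obtain ⟨⟨a1, a2⟩, a3, a4⟩ := hzf
  obtain ⟨⟨b1, b2⟩, b3, b4⟩ := hzg
  simp only at a1 a2 a3 a4 b1 b2 b3 b4
  have le : ∀ {m k : ℤ} {x : ℝ}, δ * m ≤ x → x ≤ δ * (k + 1) → m ≤ k + 1 := by
    intro m k x h1 h2
    have h3 : (m : ℝ) ≤ k + 1 := le_of_mul_le_mul_left (h1.trans h2) hδ
    exact_mod_cast h3
  have e1 := le a1 b2
  have e2 := le b1 a2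
  have e3 := le a3 b4
  have e4 := le b3 a4
  have hh := fun e => hF.1 e
  have hv := fun e => hF.2 e
  have c1 : f1 = g1 ∨ f1 = g1 + 1 ∨ g1 = f1 + 1 := by omega
  have c2 : f2 = g2 ∨ f2 = g2 + 1 ∨ g2 = f2 + 1 := by omega
  -- the corner case
  have corner : ∀ v : ℤ × ℤ, Cor v (f1, f2) → Cor v (g1, g2) → z = pt δ v → z ∈ trace δ p := by
    intro v h1 h2 h3
    obtain ⟨i, hi⟩ := corner_poly hF hf hg h1 h2
    refine mem_iUnion.2 ⟨i, ?_⟩
    rw [h3, ← hi]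
    exact left_mem_segment ℝ _ _
  rcases c1 with rfl | rfl | rfl <;> rcases c2 with rfl | rfl | rfl
  · exact absurd hf hg
  · refine trace_of_edge ((hh (f1, g2 + 1)).2 ?_) (mem_seg_h hδ ?_ a1 a2)
    · simp only [Prod.mk_sub_mk, sub_zero, add_sub_cancel_right]; tauto
    · push_cast at *; linarith
  · refine trace_of_edge ((hh (f1, f2 + 1)).2 ?_) (mem_seg_h hδ ?_ a1 a2)
    · simp only [Prod.mk_sub_mk, sub_zero, add_sub_cancel_right]; tauto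
    · push_cast at *; linarith
  · refine trace_of_edge ((hv (g1 + 1, f2)).2 ?_) (mem_seg_v hδ ?_ a3 a4)
    · simp only [Prod.mk_sub_mk, sub_zero, add_sub_cancel_right]; tauto
    · push_cast at *; linarith
  · refine corner (g1 + 1, g2 + 1) ⟨Or.inl rfl, Or.inl rfl⟩ ⟨Or.inr rfl, Or.inr rfl⟩ ?_
    refine Prod.ext ?_ ?_ <;> simp only [pt] <;> push_cast at * <;> linarith
  · refine corner (g1 + 1, f2 + 1) ⟨Or.inl rfl, Or.inr rfl⟩ ⟨Or.inr rfl, Or.inl rfl⟩ ?_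
    refine Prod.ext ?_ ?_ <;> simp only [pt] <;> push_cast at * <;> linarith
  · refine trace_of_edge ((hv (f1 + 1, f2)).2 ?_) (mem_seg_v hδ ?_ a3 a4)
    · simp only [Prod.mk_sub_mk, sub_zero, add_sub_cancel_right]; tauto
    · push_cast at *; linarith
  · refine corner (f1 + 1, g2 + 1) ⟨Or.inr rfl, Or.inl rfl⟩ ⟨Or.inl rfl, Or.inr rfl⟩ ?_
    refine Prod.ext ?_ ?_ <;> simp only [pt] <;> push_cast at * <;> linarith
  · refine corner (f1 + 1, f2 + 1) ⟨Or.inr rfl, Or.inr rfl⟩ ⟨Or.inl rfl, Or.inl rfl⟩ ?_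
    refine Prod.ext ?_ ?_ <;> simp only [pt] <;> push_cast at * <;> linarith

lemma two_faces {a b : ℤ × ℤ} (h : ¬ (a ∈ F ↔ b ∈ F)) (ha : z ∈ sq δ a) (hb : z ∈ sq δ b) :
    (∃ f ∈ F, z ∈ sq δ f) ∧ ∃ g, g ∉ F ∧ z ∈ sq δ g := by
  by_cases h1 : a ∈ F
  · exact ⟨⟨a, h1, ha⟩, b, by tauto, hb⟩
  · exact ⟨⟨b, by tauto, hb⟩, a, h1, ha⟩

lemma seg_h (hδ : 0 < δ) {e : ℤ × ℤ} (hz : z ∈ segment ℝ (pt δ e) (pt δ (e + (1, 0)))) :
    z ∈ sq δ e ∧ z ∈ sq δ (e - (0, 1)) := by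
  obtain ⟨s, t, hs, ht, hst, rfl⟩ := hz
  obtain rfl : s = 1 - t := by linarith
  have h1 : 0 ≤ δ * t := by positivity
  have h2 : 0 ≤ δ * (1 - t) := by positivity
  constructor <;> refine ⟨⟨?_, ?_⟩, ?_, ?_⟩ <;>
    simp only [pt, Prod.fst_add, Prod.snd_add, Prod.fst_sub, Prod.snd_sub, Prod.smul_fst,
      Prod.smul_snd, smul_eq_mul] <;> push_cast <;> nlinarith

lemma seg_v (hδ : 0 < δ) {e : ℤ × ℤ} (hz : z ∈ segment ℝ (pt δ e) (pt δ (e + (0, 1)))) :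
    z ∈ sq δ e ∧ z ∈ sq δ (e - (1, 0)) := by
  obtain ⟨s, t, hs, ht, hst, rfl⟩ := hz
  obtain rfl : s = 1 - t := by linarith
  have h1 : 0 ≤ δ * t := by positivity
  have h2 : 0 ≤ δ * (1 - t) := by positivity
  constructor <;> refine ⟨⟨?_, ?_⟩, ?_, ?_⟩ <;>
    simp only [pt, Prod.fst_add, Prod.snd_add, Prod.fst_sub, Prod.snd_sub, Prod.smul_fst,
      Prod.smul_snd, smul_eq_mul] <;> push_cast <;> nlinarith

/-- Every point of the polygon lies in an inner and in an outer square. -/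
lemma trace_faces (hδ : 0 < δ) (hp : IsPolygon p) (hF : Encloses p F) {i : ZMod n}
    (hz : z ∈ segment ℝ (pt δ (p i)) (pt δ (p (i + 1)))) :
    (∃ f ∈ F, z ∈ sq δ f) ∧ ∃ g, g ∉ F ∧ z ∈ sq δ g := by
  rcases hp.2.2 i with h | h | h | h
  · have h2 : p (i + 1) = p i + (1, 0) := by rw [← h]; abel
    rw [h2] at hz
    obtain ⟨k1, k2⟩ := seg_h hδ hz
    exact two_faces ((hF.1 (p i)).1 ⟨i, Or.inl ⟨rfl, h2⟩⟩) k1 k2
  · have h2 : p i = p (i + 1) + (1, 0) := by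
      have : p i = p (i + 1) - (p (i + 1) - p i) := by abel
      rw [this, h]
      ext <;> simp
    rw [h2, segment_symm] at hz
    obtain ⟨k1, k2⟩ := seg_h hδ hz
    exact two_faces ((hF.1 (p (i + 1))).1 ⟨i, Or.inr ⟨h2, rfl⟩⟩) k1 k2
  · have h2 : p (i + 1) = p i + (0, 1) := by rw [← h]; abel
    rw [h2] at hz
    obtain ⟨k1, k2⟩ := seg_v hδ hz
    exact two_faces ((hF.2 (p i)).1 ⟨i, Or.inl ⟨rfl, h2⟩⟩) k1 k2
  · have h2 : p i = p (i + 1) + (0, 1) := by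
      have : p i = p (i + 1) - (p (i + 1) - p i) := by abel
      rw [this, h]
      ext <;> simp
    rw [h2, segment_symm] at hz
    obtain ⟨k1, k2⟩ := seg_v hδ hz
    exact two_faces ((hF.2 (p (i + 1))).1 ⟨i, Or.inr ⟨h2, rfl⟩⟩) k1 k2

lemma inn_subset_compl (hδ : 0 < δ) (hp : IsPolygon p) (hF : Encloses p F) :
    inn δ F ⊆ (trace δ p)ᶜ := by
  intro z hz hzT
  obtain ⟨i, hi⟩ := mem_iUnion.1 hzT
  obtain ⟨-, g, hg, hzg⟩ := trace_faces hδ hp hF hi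
  exact hg (hz g hzg)

lemma inn_subset (hδ : 0 < δ) : inn δ F ⊆ ⋃ f ∈ F, sq δ f := by
  intro z hz
  exact mem_biUnion (hz _ (mem_sq_floor hδ z)) (mem_sq_floor hδ z)

lemma isBounded_sq (δ : ℝ) (f : ℤ × ℤ) : Bornology.IsBounded (sq δ f) := by
  refine (Metric.isBounded_Icc (pt δ f) (δ * (f.1 + 1), δ * (f.2 + 1))).subset fun z hz => ?_
  exact ⟨⟨hz.1.1, hz.2.1⟩, ⟨hz.1.2, hz.2.2⟩⟩

/-- The inner points are enclosed by the polygon. -/
theorem inn_subset_enclosed (hδ : 0 < δ) (hp : IsPolygon p) (hF : Encloses p F) :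
    inn δ F ⊆ enclosed (trace δ p) := by
  intro z hz
  refine ⟨inn_subset_compl hδ hp hF hz, ?_⟩
  have h1 : connectedComponentIn (trace δ p)ᶜ z ⊆ inn δ F := by
    refine IsPreconnected.subset_left_of_subset_union (isOpen_inn hδ F) (isOpen_out hδ F)
      (disjoint_inn_out hδ F) ?_ ?_ isPreconnected_connectedComponentIn
    · intro w hw
      have hwT := connectedComponentIn_subset _ _ hw
      by_contra hcon
      rw [mem_union, not_or] at hcon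
      obtain ⟨h1, h2⟩ := hcon
      unfold inn at h1
      unfold out at h2
      rw [Set.mem_ofPred_eq] at h1 h2
      push Not at h1 h2
      obtain ⟨g, hg, hgF⟩ := h1
      obtain ⟨f, hf, hfF⟩ := h2
      exact hwT (mem_trace hδ hF hfF hgF hf hg)
    · exact ⟨z, mem_connectedComponentIn (inn_subset_compl hδ hp hF hz), hz⟩
  refine ((Bornology.isBounded_biUnion_finset F).2 fun f _ => isBounded_sq δ f).subset
    (h1.trans (inn_subset hδ))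

/-- Every inner square is contained in the closure of the inner points. -/
theorem sq_subset_closure (hδ : 0 < δ) {f : ℤ × ℤ} (hf : f ∈ F) :
    sq δ f ⊆ closure (inn δ F) := by
  have h1 : Ioo (δ * f.1) (δ * (f.1 + 1)) ×ˢ Ioo (δ * f.2) (δ * (f.2 + 1)) ⊆ inn δ F := by
    rintro z ⟨⟨h1, h2⟩, h3, h4⟩ g hg
    have le : ∀ {m k : ℤ} {x : ℝ}, δ * m < x → x ≤ δ * (k + 1) → m ≤ k := by
      intro m k x h1 h2
      have h3 : (m : ℝ) < k + 1 := lt_of_mul_lt_mul_left (h1.trans_le h2) hδ.le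
      have h4 : m < k + 1 := by exact_mod_cast h3
      omega
    have le' : ∀ {m k : ℤ} {x : ℝ}, δ * m ≤ x → x < δ * (k + 1) → m ≤ k := by
      intro m k x h1 h2
      have h3 : (m : ℝ) < k + 1 := lt_of_mul_lt_mul_left (h1.trans_lt h2) hδ.le
      have h4 : m < k + 1 := by exact_mod_cast h3
      omega
    have : g = f := Prod.ext (le_antisymm (le' hg.1.1 h2) (le h1 hg.1.2))
      (le_antisymm (le' hg.2.1 h4) (le h3 hg.2.2))
    rw [this]; exact hf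
  refine subset_trans ?_ (closure_mono h1)
  rw [closure_prod_eq, closure_Ioo (by nlinarith), closure_Ioo (by nlinarith)]
  intro z hz
  exact ⟨hz.1, hz.2⟩

end Vale.Agent.P145.Dom
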