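import Vale.Agent.P145.Dom.Geo
import Vale.Agent.P145.PT.Jor

/-!
**(D4)** Approximations of a Jordan domain: eventually all squares near a given compact subset of
the domain are enclosed, and all enclosed squares are in a given neighbourhood of the domain.
-/

namespace Vale.Agent.P145.Dom

open Set Filter Topology Metric Vale.Agent.P145.PT

/-- (PT4) for the image of the unit ball under a homeomorphism between two normed spaces. -/
theorem enclosed_thickening {E₁ E : Type*} [NormedAddCommGroup E₁] [NormedSpace ℝ E₁]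
    [NormedAddCommGroup E] [NormedSpace ℝ E] [ProperSpace E₁] [ProperSpace E]
    (Φ : E₁ ≃ₜ E) {s : ℝ} (hs : 0 < s) :
    ∃ ε : ℝ, 0 < ε ∧ ∀ T : Set E, T ⊆ thickening ε (frontier (Φ '' ball (0 : E₁) 1)) →
      enclosed T ⊆ thickening s (Φ '' ball (0 : E₁) 1) := by
  set U : Set E := thickening s (Φ '' ball (0 : E₁) 1) with hU
  have hUo : IsOpen U := isOpen_thickening
  have hcl : Φ '' closedBall (0 : E₁) 1 ⊆ U := by
    rw [← closure_ball (0 : E₁) one_ne_zero, Φ.image_closure]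
    exact closure_subset_thickening hs _
  have hcl' : closedBall (0 : E₁) 1 ⊆ Φ ⁻¹' U := image_subset_iff.1 hcl
  obtain ⟨δ, hδ, hδU⟩ := (isCompact_closedBall (0 : E₁) 1).exists_thickening_subset_open
    (hUo.preimage Φ.continuous) hcl'
  rw [thickening_closedBall hδ zero_le_one] at hδU
  set C : Set E := Φ '' (ball (0 : E₁) (δ + 1))ᶜ with hC
  have hCc : IsClosed C := Φ.isClosedMap _ isOpen_ball.isClosed_compl
  have hF : IsCompact (Φ '' sphere (0 : E₁) 1) := (isCompact_sphere 0 1).image Φ.continuous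
  have hfr : frontier (Φ '' ball (0 : E₁) 1) = Φ '' sphere (0 : E₁) 1 := by
    rw [← Φ.image_frontier, frontier_ball _ one_ne_zero]
  have hdis : Disjoint (Φ '' sphere (0 : E₁) 1) C := by
    rw [hC, disjoint_image_iff Φ.injective, Set.disjoint_left]
    intro x hx hx'
    rw [mem_sphere_zero_iff_norm] at hx
    rw [mem_compl_iff, mem_ball_zero_iff, not_lt] at hx'
    linarith
  obtain ⟨ε, hε, hεd⟩ := hdis.exists_thickenings hF hCc
  refine ⟨ε, hε, fun T hT z hz => ?_⟩
  rw [hfr] at hT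
  by_contra hzU
  set w : E₁ := Φ.symm z with hw
  have hwz : Φ w = z := Φ.apply_symm_apply z
  have hwn : δ + 1 ≤ ‖w‖ := by
    by_contra h
    rw [not_le] at h
    have : w ∈ Φ ⁻¹' U := hδU (mem_ball_zero_iff.2 h)
    rw [mem_preimage, hwz] at this
    exact hzU this
  have hw0 : w ≠ 0 := by
    rw [← norm_pos_iff]
    linarith
  set R : Set E₁ := (fun c : ℝ => c • w) '' Ici (1 : ℝ) with hR
  have hRC : Φ '' R ⊆ C := by
    rw [hC]
    refine image_mono ?_
    rintro _ ⟨c, hc, rfl⟩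
    have hc' : (1 : ℝ) ≤ c := hc
    rw [mem_compl_iff, mem_ball_zero_iff, not_lt]
    simp only
    rw [norm_smul, Real.norm_of_nonneg (by linarith)]
    nlinarith
  have hRT : Φ '' R ⊆ Tᶜ := by
    intro x hx hxT
    have h1 : x ∈ thickening ε (Φ '' sphere (0 : E₁) 1) := hT hxT
    have h2 : x ∈ thickening ε C := self_subset_thickening hε _ (hRC hx)
    exact Set.disjoint_left.1 hεd h1 h2
  refine not_mem_enclosed ((isPreconnected_ray w).image Φ Φ.continuous.continuousOn) hRT ?_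
    (⟨w, ⟨1, self_mem_Ici, one_smul _ _⟩, hwz⟩ : z ∈ Φ '' R) hz
  intro hb
  have h1 : IsCompact (Φ.symm '' closure (Φ '' R)) :=
    (hb.isCompact_closure).image Φ.symm.continuous
  refine not_isBounded_ray hw0 (h1.isBounded.subset ?_)
  intro x hx
  exact ⟨Φ x, subset_closure ⟨x, hx, rfl⟩, Φ.symm_apply_apply x⟩

/-- The identity map from the Euclidean plane to `ℝ × ℝ`. -/
noncomputable def eh : WithLp 2 (ℝ × ℝ) ≃ₜ (ℝ × ℝ) :=
  (WithLp.prodContinuousLinearEquiv 2 ℝ ℝ ℝ).toHomeomorph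

lemma eh_ball : eh '' ball (0 : WithLp 2 (ℝ × ℝ)) 1 = disc := by
  ext z
  constructor
  · rintro ⟨w, hw, rfl⟩
    rw [mem_ball_zero_iff, WithLp.prod_norm_eq_of_L2, Real.sqrt_lt' one_pos, one_pow] at hw
    simpa [disc, eh] using hw
  · intro hz
    refine ⟨eh.symm z, ?_, eh.apply_symm_apply z⟩
    rw [mem_ball_zero_iff, WithLp.prod_norm_eq_of_L2, Real.sqrt_lt' one_pos, one_pow]
    simpa [disc, eh] using hz

theorem enclosed_disc (Φ : (ℝ × ℝ) ≃ₜ (ℝ × ℝ)) {s : ℝ} (hs : 0 < s) :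
    ∃ ε : ℝ, 0 < ε ∧ ∀ T : Set (ℝ × ℝ), T ⊆ thickening ε (frontier (Φ '' disc)) →
      enclosed T ⊆ thickening s (Φ '' disc) := by
  have h := enclosed_thickening (eh.trans Φ) hs
  have e1 : (eh.trans Φ) '' ball (0 : WithLp 2 (ℝ × ℝ)) 1 = Φ '' disc := by
    rw [← eh_ball, image_image]; rfl
  rw [e1] at h
  exact h

lemma JordanDomain.exists {D : Set (ℝ × ℝ)} (h : JordanDomain D) :
    ∃ Φ : (ℝ × ℝ) ≃ₜ (ℝ × ℝ), D = Φ '' disc := h

variable {D : Set (ℝ × ℝ)} {δ : ℕ → ℝ} {N : ℕ → ℕ} {p : ∀ n, ZMod (N n) → ℤ × ℤ}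
  {F : ℕ → Finset (ℤ × ℤ)}

lemma sq_dist {δ : ℝ} {f : ℤ × ℤ} {z w : ℝ × ℝ} (hz : z ∈ sq δ f)
    (hw : w ∈ sq δ f) : dist z w ≤ δ := by
  rw [Prod.dist_eq, Real.dist_eq, Real.dist_eq]
  obtain ⟨⟨a1, a2⟩, a3, a4⟩ := hz
  obtain ⟨⟨b1, b2⟩, b3, b4⟩ := hw
  refine max_le (abs_le.2 ⟨?_, ?_⟩) (abs_le.2 ⟨?_, ?_⟩) <;> linarith

/-- Eventually all squares which meet a given compact subset of the domain are enclosed. -/
theorem approx_inner (hD : IsOpen D) (h : Approx D δ N p F) {K : Set (ℝ × ℝ)} (hK : IsCompact K)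
    (hKD : K ⊆ D) : ∀ᶠ n in atTop, ∀ f, (sq (δ n) f ∩ K).Nonempty → f ∈ F n := by
  obtain ⟨r, hr, hrD⟩ := hK.exists_cthickening_subset_open hD hKD
  have h1 := h.cpt _ hrD hK.cthickening
  have h2 : ∀ᶠ n in atTop, δ n < r := h.lim.eventually_lt_const hr
  filter_upwards [h1, h2] with n h3 h4 f hf
  obtain ⟨z, hz, hzK⟩ := hf
  have hδ := h.pos n
  set w : ℝ × ℝ := (δ n * (f.1 + 1 / 2), δ n * (f.2 + 1 / 2)) with hw
  have hwf : w ∈ sq (δ n) f := by
    refine ⟨⟨?_, ?_⟩, ?_, ?_⟩ <;> simp only [hw] <;> nlinarith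
  have h5 : w ∈ cthickening r K := by
    refine mem_cthickening_of_dist_le w z r K hzK ?_
    have := sq_dist hwf hz
    linarith
  have h6 := h3 w h5
  have h7 : ⌊w.1 / δ n⌋ = f.1 := by
    rw [Int.floor_eq_iff]
    simp only [hw]
    rw [mul_div_cancel_left₀ _ hδ.ne']
    constructor <;> linarith
  have h8 : ⌊w.2 / δ n⌋ = f.2 := by
    rw [Int.floor_eq_iff]
    simp only [hw]
    rw [mul_div_cancel_left₀ _ hδ.ne']
    constructor <;> linarith
  rw [h7, h8] at h6
  exact h6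

/-- A point near a point on the other side of the boundary is near the boundary. -/
lemma near_frontier (hD : IsOpen D) {z w : ℝ × ℝ} (hz : z ∈ D) (hw : w ∉ D) {ε : ℝ}
    (h : dist z w < ε) : ∀ u ∈ segment ℝ z w, u ∈ thickening ε (frontier D) := by
  have h1 : (segment ℝ z w ∩ frontier D).Nonempty := by
    by_contra hcon
    rw [not_nonempty_iff_eq_empty] at hcon
    have h2 : segment ℝ z w ⊆ D ∪ (closure D)ᶜ := by
      intro u hu
      by_cases h3 : u ∈ D
      · exact Or.inl h3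
      · right
        intro h4
        have : u ∈ segment ℝ z w ∩ frontier D := ⟨hu, h4, by rwa [hD.interior_eq]⟩
        rw [hcon] at this
        exact this
    have h3 := IsPreconnected.subset_left_of_subset_union hD isClosed_closure.isOpen_compl
      (Set.disjoint_left.2 fun u h4 h5 => h5 (subset_closure h4)) h2
      ⟨z, left_mem_segment ℝ z w, hz⟩ (convex_segment z w).isPreconnected
    exact hw (h3 (right_mem_segment ℝ z w))
  obtain ⟨v, hv, hvf⟩ := h1
  intro u hu
  rw [mem_thickening_iff]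
  refine ⟨v, hvf, lt_of_le_of_lt ?_ h⟩
  obtain ⟨a, b, ha, hb, hab, rfl⟩ := hv
  obtain ⟨c, d, hc, hd, hcd, rfl⟩ := hu
  obtain rfl : a = 1 - b := by linarith
  obtain rfl : c = 1 - d := by linarith
  rw [dist_eq_norm, dist_eq_norm]
  have : (1 - d) • z + d • w - ((1 - b) • z + b • w) = (b - d) • (z - w) := by
    simp only [sub_smul, smul_sub, one_smul]; abel
  rw [this, norm_smul, Real.norm_eq_abs]
  have h3 : |b - d| ≤ 1 := by rw [abs_le]; constructor <;> linarith
  calc |b - d| * ‖z - w‖ ≤ 1 * ‖z - w‖ := mul_le_mul_of_nonneg_right h3 (norm_nonneg _)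
    _ = ‖z - w‖ := one_mul _

lemma pt_mem_sq {δ : ℝ} (hδ : 0 < δ) {v f : ℤ × ℤ} (h : Cor v f) : pt δ v ∈ sq δ f := by
  obtain ⟨h1, h2⟩ := h
  refine ⟨⟨?_, ?_⟩, ?_, ?_⟩ <;> simp only [pt]
  · rcases h1 with h | h <;> rw [h] <;> push_cast <;> nlinarith
  · rcases h1 with h | h <;> rw [h] <;> push_cast <;> nlinarith
  · rcases h2 with h | h <;> rw [h] <;> push_cast <;> nlinarith
  · rcases h2 with h | h <;> rw [h] <;> push_cast <;> nlinarith

lemma seg_dist {z w u : ℝ × ℝ} (hu : u ∈ segment ℝ z w) : dist u z ≤ dist z w := by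
  obtain ⟨c, d, hc, hd, hcd, rfl⟩ := hu
  obtain rfl : c = 1 - d := by linarith
  rw [dist_eq_norm, dist_eq_norm]
  have : (1 - d) • z + d • w - z = d • (w - z) := by
    simp only [sub_smul, smul_sub, one_smul]; abel
  rw [this, norm_smul, Real.norm_eq_abs, abs_of_nonneg hd, norm_sub_rev z w]
  calc d * ‖w - z‖ ≤ 1 * ‖w - z‖ := mul_le_mul_of_nonneg_right (by linarith) (norm_nonneg _)
    _ = ‖w - z‖ := one_mul _

lemma step_dist {δ : ℝ} (hδ : 0 < δ) {n : ℕ} {p : ZMod n → ℤ × ℤ} (hp : IsPolygon p)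
    (i : ZMod n) : dist (pt δ (p i)) (pt δ (p (i + 1))) ≤ δ := by
  have h := hp.2.2 i
  simp only [Prod.ext_iff, Prod.fst_sub, Prod.snd_sub] at h
  rw [Prod.dist_eq, Real.dist_eq, Real.dist_eq]
  simp only [pt]
  rw [← mul_sub, ← mul_sub, abs_mul, abs_mul, abs_of_pos hδ]
  have h1 : |((p i).1 : ℝ) - (p (i + 1)).1| ≤ 1 := by
    have : |(p i).1 - (p (i + 1)).1| ≤ 1 := by rw [abs_le]; omega
    exact_mod_cast this
  have h2 : |((p i).2 : ℝ) - (p (i + 1)).2| ≤ 1 := by
    have : |(p i).2 - (p (i + 1)).2| ≤ 1 := by rw [abs_le]; omega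
    exact_mod_cast this
  refine max_le ?_ ?_ <;> nlinarith

/-- The polygons are eventually close to the boundary of the domain. -/
theorem trace_near (hD : IsOpen D) (hb : Bornology.IsBounded D) (h : Approx D δ N p F) {ε : ℝ}
    (hε : 0 < ε) : ∀ᶠ n in atTop, trace (δ n) (p n) ⊆ thickening ε (frontier D) := by
  set K : Set (ℝ × ℝ) := {z | ε ≤ infDist z Dᶜ} with hKdef
  have hne : (Dᶜ).Nonempty := by
    by_contra hcon
    rw [not_nonempty_iff_eq_empty, compl_empty_iff] at hcon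
    rw [hcon] at hb
    exact (NormedSpace.unbounded_univ ℝ (ℝ × ℝ)) hb
  have hKD : K ⊆ D := by
    intro z hz
    by_contra hzD
    have h1 : infDist z Dᶜ = 0 := infDist_zero_of_mem hzD
    have h2 : ε ≤ infDist z Dᶜ := hz
    linarith
  have hKc : IsCompact K := by
    refine (isCompact_of_isClosed_isBounded (isClosed_le continuous_const
      (continuous_infDist_pt _)) (hb.subset hKD))
  have h1 := approx_inner hD h hKc hKD
  have h2 := h.near (ε / 2) (by positivity)
  have h3 : ∀ᶠ n in atTop, δ n < ε / 2 := h.lim.eventually_lt_const (by positivity)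
  filter_upwards [h1, h2, h3] with n h4 h5 h6 z hz
  have hδ := h.pos n
  obtain ⟨i, hi⟩ := mem_iUnion.1 hz
  by_cases hzD : z ∈ D
  · have h7 : z ∉ K := by
      intro hzK
      obtain ⟨-, g, hg, hzg⟩ := trace_faces hδ (h.poly n) (h.encl n) hi
      exact hg (h4 g ⟨z, hzg, hzK⟩)
    have h8 : infDist z Dᶜ < ε := by
      by_contra hcon
      exact h7 (not_lt.1 hcon)
    obtain ⟨w, hw, hzw⟩ := (infDist_lt_iff hne).1 h8
    exact near_frontier hD hzD hw hzw z (left_mem_segment ℝ z w)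
  · obtain ⟨w, hw, hzw⟩ := h5 i
    have h7 : dist z w < ε := by
      have h8 := seg_dist hi
      have h9 := step_dist hδ (h.poly n) i
      have h10 := dist_triangle z (pt (δ n) (p n i)) w
      change dist (pt (δ n) (p n i)) w < ε / 2 at hzw
      linarith
    rw [dist_comm] at h7
    exact near_frontier hD hw hzD h7 z (right_mem_segment ℝ w z)

/-- Eventually all enclosed squares are contained in a given open neighbourhood of the closure of
the domain. -/
theorem approx_outer (Φ : (ℝ × ℝ) ≃ₜ (ℝ × ℝ)) (h : Approx (Φ '' disc) δ N p F)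
    {U : Set (ℝ × ℝ)} (hU : IsOpen U) (hDU : closure (Φ '' disc) ⊆ U) :
    ∀ᶠ n in atTop, ∀ f ∈ F n, sq (δ n) f ⊆ U := by
  have hD := jordan_isOpen Φ
  have hb := jordan_isBounded Φ
  have hc : IsCompact (closure (Φ '' disc)) := hb.isCompact_closure
  obtain ⟨s, hs, hsU⟩ := hc.exists_cthickening_subset_open hU hDU
  obtain ⟨ε, hε, hεs⟩ := enclosed_disc Φ hs
  filter_upwards [trace_near hD hb h hε] with n hn f hf
  have hδ := h.pos n
  have h1 := sq_subset_closure hδ hf
  have h2 := inn_subset_enclosed hδ (h.poly n) (h.encl n)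
  have h3 := hεs _ hn
  have h4 : closure (inn (δ n) (F n)) ⊆ cthickening s (Φ '' disc) :=
    closure_minimal ((h2.trans h3).trans (thickening_subset_cthickening _ _))
      isClosed_cthickening
  exact (h1.trans h4).trans ((cthickening_subset_of_subset s subset_closure).trans hsU)

end Vale.Agent.P145.Dom
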