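import Vale.Agent.P145.Dom.Basic

/-!
Existence and uniqueness of the height function in a polygon.
-/

namespace Vale.Agent.P145.Dom

open Finset Filter Topology MeasureTheory ProbabilityTheory Vale.Agent.P145.FP
  Vale.Agent.P145.PT

/-- Every function on the integers has a primitive. -/
lemma exists_prim (f : ℤ → ℝ) : ∃ G : ℤ → ℝ, ∀ n, G (n + 1) - G n = f n := by
  refine ⟨fun n => Int.casesOn n (fun k => ∑ i ∈ range k, f i)
    (fun k => - ∑ i ∈ range (k + 1), f (Int.negSucc i)), fun n => ?_⟩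
  rcases n with k | k
  · change (∑ i ∈ range (k + 1), f i) - ∑ i ∈ range k, f i = f k
    rw [sum_range_succ]; ring
  · rcases k with _ | k
    · change (∑ i ∈ range 0, f i) - (- ∑ i ∈ range 1, f (Int.negSucc i)) = f (Int.negSucc 0)
      simp
    · change (- ∑ i ∈ range (k + 1), f (Int.negSucc i)) - (- ∑ i ∈ range (k + 2), f (Int.negSucc i))
        = f (Int.negSucc (k + 1))
      rw [sum_range_succ _ (k + 1)]; ring

/-- A curl-free field on the square lattice is a gradient. -/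
lemma exists_pot {a b : ℤ → ℤ → ℝ} (h : ∀ x y, a x y + b (x + 1) y = b x y + a x (y + 1)) :
    ∃ H : ℤ → ℤ → ℝ, (∀ x y, H (x + 1) y = H x y + a x y) ∧
      ∀ x y, H x (y + 1) = H x y + b x y := by
  choose G hG using fun x => exists_prim (b x)
  obtain ⟨K, hK⟩ := exists_prim (fun x => a x 0)
  refine ⟨fun x y => K x + (G x y - G x 0), fun x y => ?_, fun x y => ?_⟩
  · have key : ∀ y : ℤ, (G (x + 1) y - G x y) - a x y = (G (x + 1) 0 - G x 0) - a x 0 := by
      intro y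
      induction y using Int.induction_on with
      | zero => rfl
      | succ y ih =>
        have h1 := hG (x + 1) y
        have h2 := hG x y
        have h3 := h x y
        linarith
      | pred y ih =>
        have h1 := hG (x + 1) (-(y : ℤ) - 1)
        have h2 := hG x (-(y : ℤ) - 1)
        have h3 := h x (-(y : ℤ) - 1)
        rw [sub_add_cancel] at h1 h2 h3
        linarith
    have h1 := key y
    have h2 := hK x
    simp only
    linarith
  · have := hG x y
    simp only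
    linarith

lemma ew_ne {t : ℝ} {a b p q : Bool} (h : ew t a b p q ≠ 0) : a = b ∨ p = q := by
  by_contra h1
  exact h (by simp [ew, h1])

/-- If the constraint holds at all edges of the lattice then the height function exists. -/
theorem exists_isHeight {σ : Conf}
    (hh : ∀ x y : ℤ, σ (Sum.inl (x, y)) = σ (Sum.inl (x + 1, y)) ∨
      σ (Sum.inr (x, y)) = σ (Sum.inr (x, y - 1)))
    (hv : ∀ x y : ℤ, σ (Sum.inl (x, y)) = σ (Sum.inl (x, y + 1)) ∨
      σ (Sum.inr (x, y)) = σ (Sum.inr (x - 1, y))) : ∃ H, IsHeight σ H := by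
  set τ : ℤ → ℤ → ℝ := fun x y => sp (σ (Sum.inl (x, y))) with hτ
  set u : ℤ → ℤ → ℝ := fun x y => sp (σ (Sum.inr (x, y))) with hu
  have h1 : ∀ x y, (τ x (y + 1) - τ (x + 1) (y + 1)) * u x (y + 1) =
      (τ x (y + 1) - τ (x + 1) (y + 1)) * u x y := by
    intro x y
    rcases hh x (y + 1) with h | h
    · simp only [hτ, h, sub_self, zero_mul]
    · rw [add_sub_cancel_right] at h
      simp only [hu, h]
  have h2 : ∀ x y, (τ (x + 1) y - τ (x + 1) (y + 1)) * u (x + 1) y =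
      (τ (x + 1) y - τ (x + 1) (y + 1)) * u x y := by
    intro x y
    rcases hv (x + 1) y with h | h
    · simp only [hτ, h, sub_self, zero_mul]
    · rw [add_sub_cancel_right] at h
      simp only [hu, h]
  obtain ⟨H, hHa, hHb⟩ := exists_pot (a := fun x y => 1 / 2 * ((τ x y - τ (x + 1) y) * u x y))
    (b := fun x y => 1 / 2 * ((τ x y - τ x (y + 1)) * u x y)) (by
      intro x y
      simp only [h1, h2]
      ring)
  refine ⟨Sum.elim (fun v => H v.1 v.2) (fun f => H f.1 f.2 + 1 / 2 * (τ f.1 f.2 * u f.1 f.2)), ?_⟩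
  rintro ⟨x, y⟩ a b ha hb
  simp only [Sum.elim_inl, Sum.elim_inr]
  change _ = 1 / 2 * τ (x + a) (y + b) * u x y
  rcases ha with rfl | rfl <;> rcases hb with rfl | rfl
  · simp only [add_zero]; ring
  · simp only [add_zero]
    rw [hHb]; ring
  · simp only [add_zero]
    rw [hHa]; ring
  · rw [hHa, hHb, h1]; ring

lemma IsPolygon.neZero {n : ℕ} {p : ZMod n → ℤ × ℤ} (h : IsPolygon p) : NeZero n :=
  ⟨by have := h.1; omega⟩

lemma conf_poly {n : ℕ} {p : ZMod n → ℤ × ℤ} {F : Finset (ℤ × ℤ)} {S : Finset Site}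
    (hS : S ⊆ free p F) (i : ZMod n) : conf S (Sum.inl (p i)) = true := by
  classical
  rw [conf_eq_true]
  intro h
  have h1 := hS h
  unfold free at h1
  exact (mem_filter.1 (inl_mem_disjSum.1 h1)).2 i rfl

lemma conf_out {n : ℕ} {p : ZMod n → ℤ × ℤ} {F : Finset (ℤ × ℤ)} {S : Finset Site}
    (hS : S ⊆ free p F) {f : ℤ × ℤ} (hf : f ∉ F) : conf S (Sum.inr f) = true := by
  rw [conf_eq_true]
  intro h
  have h1 := hS h
  unfold free at h1
  exact hf (inr_mem_disjSum.1 h1)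

lemma conf_edge {n : ℕ} {p : ZMod n → ℤ × ℤ} {F : Finset (ℤ × ℤ)} {S : Finset Site}
    (hS : S ⊆ free p F) {a b : ℤ × ℤ} (h : IsEdge p a b) :
    conf S (Sum.inl a) = conf S (Sum.inl b) := by
  obtain ⟨i, ⟨h1, h2⟩ | ⟨h1, h2⟩⟩ := h <;> rw [← h1, ← h2, conf_poly hS, conf_poly hS]

/-- In a configuration of positive weight the constraint holds at all horizontal edges. -/
lemma constr_h {t : ℝ} {n : ℕ} {p : ZMod n → ℤ × ℤ} {F : Finset (ℤ × ℤ)} (hF : Encloses p F)
    {S : Finset Site} (hS : S ⊆ free p F) (h0 : wt t F (conf S) ≠ 0) (x y : ℤ) :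
    conf S (Sum.inl (x, y)) = conf S (Sum.inl (x + 1, y)) ∨
      conf S (Sum.inr (x, y)) = conf S (Sum.inr (x, y - 1)) := by
  have e1 : ((x, y) : ℤ × ℤ) - (0, 1) = (x, y - 1) := by simp
  have e2 : ((x, y) : ℤ × ℤ) + (1, 0) = (x + 1, y) := by simp
  have h1 := hF.1 (x, y)
  rw [e1, e2] at h1
  by_cases ha : (x, y) ∈ F
  · by_cases hb : (x, y - 1) ∈ F
    · have h2 := (mul_ne_zero_iff.1 h0).1
      rw [prod_ne_zero_iff] at h2
      have h3 := h2 (x, y) (mem_filter.2 ⟨ha, by rw [e1]; exact hb⟩)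
      exact ew_ne h3
    · exact Or.inl (conf_edge hS (h1.2 (by tauto)))
  · by_cases hb : (x, y - 1) ∈ F
    · exact Or.inl (conf_edge hS (h1.2 (by tauto)))
    · right
      rw [conf_out hS ha, conf_out hS hb]

/-- In a configuration of positive weight the constraint holds at all vertical edges. -/
lemma constr_v {t : ℝ} {n : ℕ} {p : ZMod n → ℤ × ℤ} {F : Finset (ℤ × ℤ)} (hF : Encloses p F)
    {S : Finset Site} (hS : S ⊆ free p F) (h0 : wt t F (conf S) ≠ 0) (x y : ℤ) :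
    conf S (Sum.inl (x, y)) = conf S (Sum.inl (x, y + 1)) ∨
      conf S (Sum.inr (x, y)) = conf S (Sum.inr (x - 1, y)) := by
  have e1 : ((x, y) : ℤ × ℤ) - (1, 0) = (x - 1, y) := by simp
  have e2 : ((x, y) : ℤ × ℤ) + (0, 1) = (x, y + 1) := by simp
  have h1 := hF.2 (x, y)
  rw [e1, e2] at h1
  by_cases ha : (x, y) ∈ F
  · by_cases hb : (x - 1, y) ∈ F
    · have h2 := (mul_ne_zero_iff.1 h0).2
      rw [prod_ne_zero_iff] at h2
      have h3 := h2 (x, y) (mem_filter.2 ⟨ha, by rw [e1]; exact hb⟩)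
      exact ew_ne h3
    · exact Or.inl (conf_edge hS (h1.2 (by tauto)))
  · by_cases hb : (x - 1, y) ∈ F
    · exact Or.inl (conf_edge hS (h1.2 (by tauto)))
    · right
      rw [conf_out hS ha, conf_out hS hb]

lemma isHeight_corner {σ : Conf} {H : Site → ℝ} (h : IsHeight σ H) {f v : ℤ × ℤ}
    (h1 : v.1 = f.1 ∨ v.1 = f.1 + 1) (h2 : v.2 = f.2 ∨ v.2 = f.2 + 1) :
    H (Sum.inr f) - H (Sum.inl v) = 1 / 2 * sp (σ (Sum.inl v)) * sp (σ (Sum.inr f)) := by
  have h3 := h f (v.1 - f.1) (v.2 - f.2) (by omega) (by omega)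
  simpa using h3

/-- Two adjacent vertices with equal spins have equal heights. -/
lemma isHeight_adj {σ : Conf} {H : Site → ℝ} (h : IsHeight σ H) {u v : ℤ × ℤ}
    (huv : v - u = (1, 0) ∨ v - u = (-1, 0) ∨ v - u = (0, 1) ∨ v - u = (0, -1))
    (hs : σ (Sum.inl u) = σ (Sum.inl v)) : H (Sum.inl u) = H (Sum.inl v) := by
  have h4 : ∃ f : ℤ × ℤ, (u.1 = f.1 ∨ u.1 = f.1 + 1) ∧ (u.2 = f.2 ∨ u.2 = f.2 + 1) ∧
      (v.1 = f.1 ∨ v.1 = f.1 + 1) ∧ (v.2 = f.2 ∨ v.2 = f.2 + 1) := by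
    simp only [Prod.ext_iff, Prod.fst_sub, Prod.snd_sub] at huv
    refine ⟨(min u.1 v.1, min u.2 v.2), ?_⟩
    simp only
    omega
  obtain ⟨f, h1, h2, h3, h4⟩ := h4
  have e1 := isHeight_corner h h1 h2
  have e2 := isHeight_corner h h3 h4
  rw [hs] at e1
  linarith

/-- The height is constant on the polygon. -/
lemma poly_const {σ : Conf} {H : Site → ℝ} (hH : IsHeight σ H) {n : ℕ} {p : ZMod n → ℤ × ℤ}
    (hp : IsPolygon p) (hσ : ∀ i, σ (Sum.inl (p i)) = true) (i : ZMod n) :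
    H (Sum.inl (p i)) = H (Sum.inl (p 0)) := by
  have := hp.neZero
  have h2 : ∀ k : ℕ, H (Sum.inl (p (k : ZMod n))) = H (Sum.inl (p 0)) := by
    intro k
    induction k with
    | zero => simp
    | succ k ih =>
      rw [← ih]
      refine (isHeight_adj hH ?_ ?_).symm
      · have := hp.2.2 (k : ZMod n)
        push_cast
        exact this
      · rw [hσ, hσ]
  have := h2 i.val
  rwa [ZMod.natCast_zmod_val] at this

/-- **(D2)** In a configuration of positive weight there is a height function vanishing on the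
polygon. -/
theorem exists_isHt {t : ℝ} {n : ℕ} {p : ZMod n → ℤ × ℤ} (hp : IsPolygon p)
    {F : Finset (ℤ × ℤ)} (hF : Encloses p F)
    {S : Finset Site} (hS : S ⊆ free p F) (h0 : wt t F (conf S) ≠ 0) :
    ∃ H, IsHeight (conf S) H ∧ ∀ i, H (Sum.inl (p i)) = 0 := by
  obtain ⟨H, hH⟩ := exists_isHeight (constr_h hF hS h0) (constr_v hF hS h0)
  have h1 := poly_const hH hp (conf_poly hS)
  refine ⟨fun x => H x - H (Sum.inl (p 0)), ?_, fun i => by simp only [h1, sub_self]⟩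
  intro f a b ha hb
  have := hH f a b ha hb
  simp only
  linarith

theorem ae_exists_isHt {t : ℝ} {n : ℕ} {p : ZMod n → ℤ × ℤ} (hp : IsPolygon p)
    {F : Finset (ℤ × ℤ)} (hF : Encloses p F) :
    ∀ᵐ σ ∂law t p F, ∃ H, IsHt p F σ H := by
  refine law_ae fun S hS h0 => ?_
  obtain ⟨H, h1, h2⟩ := exists_isHt hp hF hS h0
  exact ⟨H, h2, fun f _ a b ha hb => h1 f a b ha hb⟩

lemma IsEdge.left {n : ℕ} {p : ZMod n → ℤ × ℤ} {a b : ℤ × ℤ} (h : IsEdge p a b) :
    ∃ i, p i = a := by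
  obtain ⟨i, ⟨h1, h2⟩ | ⟨h1, h2⟩⟩ := h
  · exact ⟨i, h1⟩
  · exact ⟨i + 1, h2⟩

/-- The height function is unique on the enclosed faces. -/
theorem IsHt.unique_face {n : ℕ} {p : ZMod n → ℤ × ℤ} {F : Finset (ℤ × ℤ)} (hF : Encloses p F)
    {σ : Conf} {H H' : Site → ℝ} (h : IsHt p F σ H) (h' : IsHt p F σ H') {f : ℤ × ℤ}
    (hf : f ∈ F) : H (Sum.inr f) = H' (Sum.inr f) := by
  have key : ∀ k : ℕ, ∀ f ∈ F, (f.1 - k, f.2) ∉ F → H (Sum.inr f) = H' (Sum.inr f) := by
    intro k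
    induction k with
    | zero => intro f hf h1; exact absurd (by simpa using hf) h1
    | succ k ih =>
      intro f hf h1
      have h2 := h.2 f hf 0 0 (Or.inl rfl) (Or.inl rfl)
      have h3 := h'.2 f hf 0 0 (Or.inl rfl) (Or.inl rfl)
      simp only [add_zero] at h2 h3
      suffices h5 : H (Sum.inl f) = H' (Sum.inl f) by linarith
      by_cases h4 : (f.1 - 1, f.2) ∈ F
      · have h6 := ih (f.1 - 1, f.2) h4 (by
          have : (f.1 - 1 - (k : ℤ), f.2) = (f.1 - ((k + 1 : ℕ) : ℤ), f.2) := by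
            push_cast; congr 1; ring
          simpa only [this] using h1)
        have h7 := h.2 _ h4 1 0 (Or.inr rfl) (Or.inl rfl)
        have h8 := h'.2 _ h4 1 0 (Or.inr rfl) (Or.inl rfl)
        simp only [sub_add_cancel, add_zero] at h7 h8
        linarith
      · have h6 : IsEdge p f (f + (0, 1)) := by
          rw [hF.2 f]
          have : f - (1, 0) = (f.1 - 1, f.2) := by ext <;> simp
          rw [this]; tauto
        obtain ⟨i, hi⟩ := h6.left
        rw [← hi, h.1, h'.1]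
  obtain ⟨k, hk⟩ : ∃ k : ℕ, (f.1 - (k : ℤ), f.2) ∉ F := by
    by_contra hcon
    push Not at hcon
    have h1 : Function.Injective (fun k : ℕ => (f.1 - (k : ℤ), f.2)) := by
      intro a b hab
      simp only [Prod.mk.injEq, and_true] at hab
      omega
    exact Set.infinite_range_of_injective h1
      (F.finite_toSet.subset (by rintro _ ⟨k, rfl⟩; exact hcon k))
  exact key k f hf hk

lemma mem_verts {F : Finset (ℤ × ℤ)} {v : ℤ × ℤ} : v ∈ verts F ↔
    ∃ f ∈ F, ∃ a b : ℤ, (a = 0 ∨ a = 1) ∧ (b = 0 ∨ b = 1) ∧ v = (f.1 + a, f.2 + b) := by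
  unfold verts
  simp only [mem_union, mem_image]
  constructor
  · rintro (((h | ⟨f, hf, rfl⟩) | ⟨f, hf, rfl⟩) | ⟨f, hf, rfl⟩)
    · exact ⟨v, h, 0, 0, by simp⟩
    · exact ⟨f, hf, 1, 0, by simp, by simp, rfl⟩
    · exact ⟨f, hf, 0, 1, by simp, by simp, rfl⟩
    · exact ⟨f, hf, 1, 1, by simp, by simp, rfl⟩
  · rintro ⟨f, hf, a, b, rfl | rfl, rfl | rfl, rfl⟩
    · left; left; left; simpa using hf
    · left; right; exact ⟨f, hf, rfl⟩
    · left; left; right; exact ⟨f, hf, rfl⟩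
    · right; exact ⟨f, hf, rfl⟩

/-- The height function is unique on the vertices. -/
theorem IsHt.unique {n : ℕ} {p : ZMod n → ℤ × ℤ} {F : Finset (ℤ × ℤ)} (hF : Encloses p F)
    {σ : Conf} {H H' : Site → ℝ} (h : IsHt p F σ H) (h' : IsHt p F σ H') {v : ℤ × ℤ}
    (hv : v ∈ verts F) : H (Sum.inl v) = H' (Sum.inl v) := by
  obtain ⟨f, hf, a, b, ha, hb, rfl⟩ := mem_verts.1 hv
  have h1 := IsHt.unique_face hF h h' hf
  have h2 := h.2 f hf a b ha hb
  have h3 := h'.2 f hf a b ha hb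
  linarith

theorem IsHt.fldD_eq {n : ℕ} {p : ZMod n → ℤ × ℤ} {F : Finset (ℤ × ℤ)} (hF : Encloses p F)
    {σ : Conf} {H H' : Site → ℝ} (h : IsHt p F σ H) (h' : IsHt p F σ H') (δ : ℝ)
    (φ : ℝ × ℝ → ℝ) : fldD F H δ φ = fldD F H' δ φ := by
  unfold fldD
  congr 1
  exact sum_congr rfl fun v hv => by rw [h.unique hF h' hv]

end Vale.Agent.P145.Dom
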