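import Vale.Agent.P145.Dom.Basic
import Vale.Agent.P145.PT.Poincare
import Mathlib.MeasureTheory.Measure.LevyConvergence

/-!
`V D` is a quadratic form on the test functions; convergence of the characteristic functions of
all single test functions gives the joint convergence in law to the centred Gaussian vector.
-/

namespace Vale.Agent.P145.Dom

open Finset Filter Topology MeasureTheory ProbabilityTheory Vale.Agent.P145.FP
  Vale.Agent.P145.PT

/-! ### Abstract quadratic forms -/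

/-- An additive function on the line with a quadratic bound is linear. -/
theorem lin_of_bound {f : ℝ → ℝ} (hadd : ∀ s t, f (s + t) = f s + f t) {a b : ℝ}
    (hb : ∀ t, |f t| ≤ a + b * t ^ 2) (t : ℝ) : f t = t * f 1 := by
  set F : ℝ →+ ℝ := AddMonoidHom.mk' f hadd with hF
  have hnat : ∀ (n : ℕ) (s : ℝ), f (n * s) = n * f s := by
    intro n s
    have := map_nsmul F n s
    simpa [hF, nsmul_eq_mul] using this
  have hint : ∀ (n : ℤ) (s : ℝ), f (n * s) = n * f s := by
    intro n s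
    have := map_zsmul F n s
    simpa [hF, zsmul_eq_mul] using this
  have hb0 : 0 ≤ a := by
    have := (abs_nonneg _).trans (hb 0)
    simpa using this
  -- the bound for `g t = f t - t * f 1` on `[0, 1]`
  have hg : ∀ (n : ℕ), (n : ℝ) * |f t - t * f 1| ≤ a + |b| + |f 1| := by
    intro n
    have h1 : (n : ℝ) * (f t - t * f 1) = f (Int.fract (n * t)) - Int.fract (n * t) * f 1 := by
      have h2 : f (n * t) = f (Int.fract (n * t)) + (⌊(n : ℝ) * t⌋ : ℤ) * f 1 := by
        conv_lhs => rw [← Int.fract_add_floor ((n : ℝ) * t)]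
        rw [hadd]
        congr 1
        have := hint ⌊(n : ℝ) * t⌋ 1
        rwa [mul_one] at this
      have h3 := hnat n t
      have h4 : (n : ℝ) * t = Int.fract ((n : ℝ) * t) + (⌊(n : ℝ) * t⌋ : ℤ) :=
        (Int.fract_add_floor _).symm
      have h5 : (n : ℝ) * (f t - t * f 1) = f (n * t) - ((n : ℝ) * t) * f 1 := by
        rw [h3]; ring
      rw [h5, h2]
      conv_lhs => rw [h4]
      rw [Int.fract_add_intCast, Int.fract_fract, Int.floor_add_intCast, Int.floor_fract]
      push_cast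
      ring
    have h6 : (n : ℝ) * |f t - t * f 1| = |(n : ℝ) * (f t - t * f 1)| := by
      rw [abs_mul, Nat.abs_cast]
    rw [h6, h1]
    set u := Int.fract ((n : ℝ) * t) with hu
    have hu0 : 0 ≤ u := Int.fract_nonneg _
    have hu1 : u < 1 := Int.fract_lt_one _
    have h7 := hb u
    have h8 : |f u - u * f 1| ≤ |f u| + |u * f 1| := abs_sub _ _
    have h9 : |u * f 1| ≤ |f 1| := by
      rw [abs_mul, abs_of_nonneg hu0]
      exact mul_le_of_le_one_left (abs_nonneg _) hu1.le
    have h10 : b * u ^ 2 ≤ |b| := by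
      have h11 : u ^ 2 ≤ 1 := by nlinarith
      calc b * u ^ 2 ≤ |b| * u ^ 2 := mul_le_mul_of_nonneg_right (le_abs_self _) (sq_nonneg _)
        _ ≤ |b| * 1 := mul_le_mul_of_nonneg_left h11 (abs_nonneg _)
        _ = |b| := mul_one _
    linarith
  by_contra hne
  have hpos : 0 < |f t - t * f 1| := abs_pos.2 (sub_ne_zero.2 hne)
  obtain ⟨n, hn⟩ := exists_nat_gt ((a + |b| + |f 1|) / |f t - t * f 1|)
  rw [div_lt_iff₀ hpos] at hn
  exact absurd (hg n) (not_le.2 hn)

section Abstract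

variable {E : Type*} [AddCommGroup E] [Module ℝ E] {Q : E → ℝ}
  (hpar : ∀ x y, Q (x + y) + Q (x - y) = 2 * Q x + 2 * Q y)
  (hsm : ∀ (t : ℝ) x, Q (t • x) = t ^ 2 * Q x) (hnn : ∀ x, 0 ≤ Q x)

include hsm in
theorem par_symm (x y : E) : (Q (x + y) - Q (x - y)) / 4 = (Q (y + x) - Q (y - x)) / 4 := by
  have h1 : Q (y - x) = Q (x - y) := by
    have := hsm (-1) (x - y)
    rw [neg_one_smul, neg_sub] at this
    rw [this]; norm_num
  rw [h1, add_comm x y]

omit [Module ℝ E] in
include hpar in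
theorem par_add (x y z : E) : (Q (x + y + z) - Q (x + y - z)) / 4 =
    (Q (x + z) - Q (x - z)) / 4 + (Q (y + z) - Q (y - z)) / 4 := by
  have h1 := hpar (x + y) z
  have h2 := hpar (x - z) y
  have h3 := hpar x (y + z)
  have h4 := hpar x z
  have h5 := hpar y z
  have e1 : x - z + y = x + y - z := by abel
  have e2 : x - z - y = x - (y + z) := by abel
  have e3 : x + (y + z) = x + y + z := by abel
  rw [e1, e2] at h2
  rw [e3] at h3
  linarith

include hpar hsm hnn

theorem par_smul (t : ℝ) (x z : E) : (Q (t • x + z) - Q (t • x - z)) / 4 =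
    t * ((Q (x + z) - Q (x - z)) / 4) := by
  have key := lin_of_bound (f := fun t => (Q (t • x + z) - Q (t • x - z)) / 4)
    (a := Q z / 2) (b := Q x / 2) (fun s t => by
      rw [add_smul]
      exact par_add hpar (s • x) (t • x) z) (fun t => by
      have h1 := hpar (t • x) z
      rw [hsm t x] at h1
      have h2 := hnn (t • x + z)
      have h3 := hnn (t • x - z)
      rw [abs_le]
      constructor <;> linarith) t
  simpa using key

theorem par_sum {ι : Type*} (s : Finset ι) (c : ι → ℝ) (v : ι → E) :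
    Q (∑ i ∈ s, c i • v i) = ∑ i ∈ s, ∑ j ∈ s, c i * c j *
      ((Q (v i + v j) - Q (v i - v j)) / 4) := by
  classical
  set B : E → E → ℝ := fun x y => (Q (x + y) - Q (x - y)) / 4 with hB
  have hz : ∀ z, B 0 z = 0 := fun z => by
    have h := par_smul hpar hsm hnn 0 0 z
    rw [zero_smul, zero_mul] at h
    exact h
  have hsumL : ∀ (u : ι → E) (z : E), B (∑ i ∈ s, c i • u i) z = ∑ i ∈ s, c i * B (u i) z := by
    intro u z
    induction s using Finset.induction_on with
    | empty => rw [Finset.sum_empty, Finset.sum_empty]; exact hz z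
    | insert i s hi ih =>
      rw [Finset.sum_insert hi, Finset.sum_insert hi, ← ih, ← par_smul hpar hsm hnn (c i) (u i) z]
      exact par_add hpar _ _ _
  have hsymm : ∀ x y, B x y = B y x := fun x y => par_symm hsm x y
  have hself : ∀ x, Q x = B x x := fun x => by
    have h1 := hsm 2 x
    have h2 := hsm 0 x
    rw [zero_smul] at h2
    rw [two_smul] at h1
    simp only [hB, sub_self, h1, h2]
    ring
  rw [hself, hsumL]
  refine Finset.sum_congr rfl fun i _ => ?_
  rw [hsymm, hsumL, Finset.mul_sum]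
  refine Finset.sum_congr rfl fun j _ => ?_
  rw [hsymm]
  ring

end Abstract

/-! ### The form `V` -/

theorem energy_smul' {D : Set (ℝ × ℝ)} {ψ : ℝ × ℝ → ℝ} (hψ : TestOn D ψ) (t : ℝ) :
    energy (fun z => t * ψ z) = t ^ 2 * energy ψ := by
  unfold energy
  rw [← integral_const_mul]
  congr 1; funext z
  rw [dx_smul hψ.sm, dy_smul hψ.sm]; ring

theorem energy_par {D : Set (ℝ × ℝ)} {f g : ℝ × ℝ → ℝ} (hf : TestOn D f) (hg : TestOn D g) :
    energy (fun z => f z + g z) + energy (fun z => f z - g z) = 2 * energy f + 2 * energy g := by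
  unfold energy
  rw [← integral_const_mul, ← integral_const_mul, ← integral_add (hf.add hg).intE (hf.sub hg).intE,
    ← integral_add (hf.intE.const_mul 2) (hg.intE.const_mul 2)]
  congr 1; funext z
  have e1 : (fun z => f z - g z) = fun z => f z + (-1) * g z := by funext w; ring
  rw [e1, dx_add hf.sm hg.sm, dy_add hf.sm hg.sm, dx_add hf.sm (hg.smul (-1)).sm,
    dy_add hf.sm (hg.smul (-1)).sm, dx_smul hg.sm, dy_smul hg.sm]
  ring

theorem integral_mul_add {D D' : Set (ℝ × ℝ)} {f g h : ℝ × ℝ → ℝ} (hf : TestOn D f)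
    (hg : TestOn D g) (hh : TestOn D' h) :
    ∫ z, (f z + g z) * h z = (∫ z, f z * h z) + ∫ z, g z * h z := by
  rw [← integral_add (hf.intMul hh.cont) (hg.intMul hh.cont)]
  congr 1; funext z; ring

theorem V_par {D : Set (ℝ × ℝ)} (hD : Bornology.IsBounded D) {φ ψ : ℝ × ℝ → ℝ}
    (hφ : TestOn D φ) (hψ : TestOn D ψ) :
    V D (fun z => φ z + ψ z) + V D (fun z => φ z - ψ z) = 2 * V D φ + 2 * V D ψ := by
  have hneg : ∀ {f : ℝ × ℝ → ℝ}, TestOn D f → ∀ (t : ℝ) (a : ℝ × ℝ → ℝ),
      ∫ z, f z * (t * a z) = t * ∫ z, f z * a z := by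
    intro f _ t a
    rw [← integral_const_mul]
    congr 1; funext z; ring
  have exp1 : ∀ {f a b : ℝ × ℝ → ℝ}, TestOn D f → TestOn D a → TestOn D b →
      ∫ z, f z * (a z + b z) = (∫ z, f z * a z) + ∫ z, f z * b z := by
    intro f a b hf ha hb
    rw [← integral_add (hf.intMul ha.cont) (hf.intMul hb.cont)]
    congr 1; funext z; ring
  have exp2 : ∀ {f a b : ℝ × ℝ → ℝ}, TestOn D f → TestOn D a → TestOn D b →
      ∫ z, f z * (a z - b z) = (∫ z, f z * a z) - ∫ z, f z * b z := by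
    intro f a b hf ha hb
    rw [← integral_sub (hf.intMul ha.cont) (hf.intMul hb.cont)]
    congr 1; funext z; ring
  have exp3 : ∀ {f g a : ℝ × ℝ → ℝ}, TestOn D f → TestOn D g → TestOn D a →
      ∫ z, (f z + g z) * a z = (∫ z, f z * a z) + ∫ z, g z * a z := by
    intro f g a hf hg ha
    rw [← integral_add (hf.intMul ha.cont) (hg.intMul ha.cont)]
    congr 1; funext z; ring
  have exp4 : ∀ {f g a : ℝ × ℝ → ℝ}, TestOn D f → TestOn D g → TestOn D a →
      ∫ z, (f z - g z) * a z = (∫ z, f z * a z) - ∫ z, g z * a z := by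
    intro f g a hf hg ha
    rw [← integral_sub (hf.intMul ha.cont) (hg.intMul ha.cont)]
    congr 1; funext z; ring
  apply le_antisymm
  · -- `V(φ+ψ) ≤ 2 V φ + 2 V ψ - V(φ-ψ)`
    have h1 : V D (fun z => φ z + ψ z) ≤ 2 * V D φ + 2 * V D ψ - V D (fun z => φ z - ψ z) := by
      refine V_le fun a ha => ?_
      rw [le_sub_iff_add_le, add_comm, ← le_sub_iff_add_le]
      refine V_le fun b hb => ?_
      rw [le_sub_iff_add_le]
      have k1 := le_V hD hφ ((ha.add hb).smul (1 / 2))
      have k2 := le_V hD hψ ((ha.sub hb).smul (1 / 2))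
      have e1 := energy_smul' (ha.add hb) (1 / 2)
      have e2 := energy_smul' (ha.sub hb) (1 / 2)
      have e3 := energy_par ha hb
      rw [e1, hneg hφ (1 / 2) (fun z => a z + b z), exp1 hφ ha hb] at k1
      rw [e2, hneg hψ (1 / 2) (fun z => a z - b z), exp2 hψ ha hb] at k2
      rw [exp3 hφ hψ ha, exp4 hφ hψ hb]
      linarith
    linarith
  · have h1 : V D φ ≤ (V D (fun z => φ z + ψ z) + V D (fun z => φ z - ψ z) - 2 * V D ψ) / 2 := by
      refine V_le fun a ha => ?_
      have h2 : V D ψ ≤ (V D (fun z => φ z + ψ z) + V D (fun z => φ z - ψ z) -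
          2 * ((2 * ∫ z, φ z * a z) - energy a)) / 2 := by
        refine V_le fun b hb => ?_
        have k1 := le_V hD (hφ.add hψ) (ha.add hb)
        have k2 := le_V hD (hφ.sub hψ) (ha.sub hb)
        have e3 := energy_par ha hb
        rw [exp3 hφ hψ (ha.add hb), exp1 hφ ha hb, exp1 hψ ha hb] at k1
        rw [exp4 hφ hψ (ha.sub hb), exp2 hφ ha hb, exp2 hψ ha hb] at k2
        linarith
      linarith
    linarith

theorem V_smul {D : Set (ℝ × ℝ)} (hD : Bornology.IsBounded D) {φ : ℝ × ℝ → ℝ}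
    (hφ : TestOn D φ) (t : ℝ) : V D (fun z => t * φ z) = t ^ 2 * V D φ := by
  have key : ∀ (t : ℝ), t ≠ 0 → ∀ φ, TestOn D φ → V D (fun z => t * φ z) ≤ t ^ 2 * V D φ := by
    intro t ht φ hφ
    refine V_le fun a ha => ?_
    have k := le_V hD hφ (ha.smul t⁻¹)
    rw [energy_smul' ha] at k
    have e1 : ∫ z, φ z * (t⁻¹ * a z) = t⁻¹ * ∫ z, φ z * a z := by
      rw [← integral_const_mul]
      congr 1; funext z; ring
    have e2 : ∫ z, t * φ z * a z = t * ∫ z, φ z * a z := by
      rw [← integral_const_mul]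
      congr 1; funext z; ring
    rw [e1] at k
    rw [e2]
    have h1 := mul_le_mul_of_nonneg_left k (sq_nonneg t)
    have h2 : t ^ 2 * (2 * (t⁻¹ * ∫ z, φ z * a z) - t⁻¹ ^ 2 * energy a) =
        2 * (t * ∫ z, φ z * a z) - energy a := by
      field_simp
    linarith
  rcases eq_or_ne t 0 with rfl | ht
  · have h0 : (fun z => (0 : ℝ) * φ z) = fun _ => 0 := by funext z; ring
    rw [h0]
    have h1 : V D (fun _ => (0 : ℝ)) ≤ 0 := V_le fun a _ => by
      have := energy_nonneg a
      simp only [zero_mul, integral_zero, mul_zero]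
      linarith
    have h2 := V_nonneg hD (TestOn.zero D)
    have h3 : V D (fun _ => (0 : ℝ)) = 0 := le_antisymm h1 h2
    rw [h3]; ring
  · apply le_antisymm (key t ht φ hφ)
    have h1 := key t⁻¹ (inv_ne_zero ht) _ (hφ.smul t)
    have h2 : (fun z => t⁻¹ * (t * φ z)) = φ := by funext z; field_simp
    rw [h2] at h1
    have h3 := mul_le_mul_of_nonneg_left h1 (sq_nonneg t)
    have h4 : t ^ 2 * (t⁻¹ ^ 2 * V D fun z => t * φ z) = V D fun z => t * φ z := by
      field_simp
    linarith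

/-- The test functions as a vector space. -/
def testSub (D : Set (ℝ × ℝ)) : Submodule ℝ (ℝ × ℝ → ℝ) where
  carrier := {φ | TestOn D φ}
  add_mem' := fun ha hb => ha.add hb
  zero_mem' := TestOn.zero D
  smul_mem' := fun c _ hx => hx.smul c

/-- `V` of a linear combination. -/
theorem V_sum {D : Set (ℝ × ℝ)} (hD : Bornology.IsBounded D) {k : ℕ} {φ : Fin k → ℝ × ℝ → ℝ}
    (hφ : ∀ j, TestOn D (φ j)) (x : Fin k → ℝ) :
    V D (fun z => ∑ j, x j * φ j z) = ∑ i, ∑ j, x i * x j * dirCov D (φ i) (φ j) := by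
  have key := par_sum (E := testSub D) (Q := fun f => V D f.1)
    (fun f g => V_par hD f.2 g.2) (fun t f => V_smul hD f.2 t) (fun f => V_nonneg hD f.2)
    Finset.univ x (fun j => ⟨φ j, hφ j⟩)
  have e : ((∑ j, x j • (⟨φ j, hφ j⟩ : testSub D) : testSub D) : ℝ × ℝ → ℝ) =
      fun z => ∑ j, x j * φ j z := by
    funext z
    simp [Finset.sum_apply]
  rw [e] at key
  exact key

theorem TestOn.sum {D : Set (ℝ × ℝ)} {k : ℕ} {φ : Fin k → ℝ × ℝ → ℝ}
    (hφ : ∀ j, TestOn D (φ j)) (x : Fin k → ℝ) : TestOn D (fun z => ∑ j, x j * φ j z) := by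
  have h : (∑ j, x j • (⟨φ j, hφ j⟩ : testSub D) : testSub D).1 ∈ testSub D := Subtype.property _
  have e : ((∑ j, x j • (⟨φ j, hφ j⟩ : testSub D) : testSub D) : ℝ × ℝ → ℝ) =
      fun z => ∑ j, x j * φ j z := by
    funext z
    simp [Finset.sum_apply]
  rw [e] at h
  exact h

theorem dirCov_symm {D : Set (ℝ × ℝ)} (hD : Bornology.IsBounded D) {φ ψ : ℝ × ℝ → ℝ}
    (hφ : TestOn D φ) (hψ : TestOn D ψ) : dirCov D φ ψ = dirCov D ψ φ :=
  par_symm (E := testSub D) (Q := fun f => V D f.1)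
    (fun t f => V_smul hD f.2 t) ⟨φ, hφ⟩ ⟨ψ, hψ⟩

theorem dirCov_dot {D : Set (ℝ × ℝ)} (hD : Bornology.IsBounded D) (c : ℝ) {k : ℕ}
    {φ : Fin k → ℝ × ℝ → ℝ} (hφ : ∀ j, TestOn D (φ j)) (x : Fin k → ℝ) :
    x ⬝ᵥ (Matrix.of fun i j => c * dirCov D (φ i) (φ j)).mulVec x =
      c * V D (fun z => ∑ j, x j * φ j z) := by
  rw [V_sum hD hφ, Finset.mul_sum]
  simp only [dotProduct, Matrix.mulVec, Matrix.of_apply, Finset.mul_sum]
  exact Finset.sum_congr rfl fun i _ => Finset.sum_congr rfl fun j _ => by ring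

theorem dirCov_posSemidef {D : Set (ℝ × ℝ)} (hD : Bornology.IsBounded D) {c : ℝ} (hc : 0 ≤ c)
    {k : ℕ} {φ : Fin k → ℝ × ℝ → ℝ} (hφ : ∀ j, TestOn D (φ j)) :
    (Matrix.of fun i j => c * dirCov D (φ i) (φ j)).PosSemidef := by
  refine Matrix.PosSemidef.of_dotProduct_mulVec_nonneg ?_ fun θ => ?_
  · ext i j
    simp [Matrix.conjTranspose_apply, dirCov_symm hD (hφ i) (hφ j)]
  · rw [star_trivial, dirCov_dot hD c hφ θ]
    exact mul_nonneg hc (V_nonneg hD (TestOn.sum hφ θ))

/-- Convergence of the characteristic functions of all single test functions gives the joint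
convergence in law to the centred Gaussian vector. -/
theorem vec_conv {D : Set (ℝ × ℝ)} (hD : Bornology.IsBounded D) {c : ℝ} (hc : 0 ≤ c)
    {Ω : ℕ → Type*} [∀ n, MeasurableSpace (Ω n)] (μ : ∀ n, Measure (Ω n))
    [∀ n, IsProbabilityMeasure (μ n)] (X : ∀ n, Ω n → (ℝ × ℝ → ℝ) → ℝ)
    (hadd : ∀ n ω φ ψ, X n ω (fun z => φ z + ψ z) = X n ω φ + X n ω ψ)
    (hsmul : ∀ n ω (a : ℝ) φ, X n ω (fun z => a * φ z) = a * X n ω φ)
    (hm : ∀ n φ, AEMeasurable (fun ω => X n ω φ) (μ n))
    (hch : ∀ φ, TestOn D φ → Tendsto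
      (fun n => ∫ ω, Complex.exp ((X n ω φ : ℂ) * Complex.I) ∂μ n) atTop
      (𝓝 (Complex.exp (-((c * V D φ : ℝ) : ℂ) / 2))))
    (k : ℕ) (φ : Fin k → ℝ × ℝ → ℝ) (hφ : ∀ j, TestOn D (φ j)) :
    (Matrix.of fun i j => c * dirCov D (φ i) (φ j)).PosSemidef ∧
    TendstoInDistribution
      (fun n ω => (WithLp.toLp 2 (fun j => X n ω (φ j)) : EuclideanSpace ℝ (Fin k))) atTop
      (id : EuclideanSpace ℝ (Fin k) → EuclideanSpace ℝ (Fin k)) μ
      (multivariateGaussian 0 (Matrix.of fun i j => c * dirCov D (φ i) (φ j))) := by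
  have hpsd := dirCov_posSemidef hD hc hφ
  refine ⟨hpsd, ?_⟩
  have hX : ∀ n, AEMeasurable (fun ω =>
      (WithLp.toLp 2 (fun j => X n ω (φ j)) : EuclideanSpace ℝ (Fin k))) (μ n) := by
    intro n
    exact (WithLp.measurable_toLp 2 (Fin k → ℝ)).comp_aemeasurable
      (aemeasurable_pi_lambda _ fun j => hm n (φ j))
  refine ⟨hX, by fun_prop, ?_⟩
  refine ProbabilityMeasure.tendsto_of_tendsto_charFun fun t => ?_
  have hid : (multivariateGaussian 0 (Matrix.of fun i j => c * dirCov D (φ i) (φ j))).map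
      (id : EuclideanSpace ℝ (Fin k) → EuclideanSpace ℝ (Fin k)) =
      multivariateGaussian 0 (Matrix.of fun i j => c * dirCov D (φ i) (φ j)) := Measure.map_id
  simp only [ProbabilityMeasure.coe_mk, hid]
  rw [charFun_multivariateGaussian hpsd]
  have hF := TestOn.sum hφ (fun j => t j)
  have h1 := hch _ hF
  have h2 : Complex.exp (((inner ℝ t (0 : EuclideanSpace ℝ (Fin k)) : ℝ) : ℂ) * Complex.I -
      ((t : Fin k → ℝ) ⬝ᵥ (Matrix.of fun i j => c * dirCov D (φ i) (φ j)).mulVec t : ℝ) / 2) =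
      Complex.exp (-((c * V D (fun z => ∑ j, t j * φ j z) : ℝ) : ℂ) / 2) := by
    rw [dirCov_dot hD c hφ, inner_zero_right]
    congr 1
    push_cast
    ring
  rw [h2]
  refine h1.congr fun n => ?_
  have hlin : ∀ ω, X n ω (fun z => ∑ j, t j * φ j z) = ∑ j, t j * X n ω (φ j) := by
    intro ω
    have gen : ∀ s : Finset (Fin k), X n ω (fun z => ∑ j ∈ s, t j * φ j z) =
        ∑ j ∈ s, t j * X n ω (φ j) := by
      classical
      intro s
      induction s using Finset.induction_on with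
      | empty =>
        have := hsmul n ω 0 (fun _ => 0)
        simpa using this
      | insert i s hi ih =>
        simp only [Finset.sum_insert hi]
        rw [hadd n ω (fun z => t i * φ i z) (fun z => ∑ j ∈ s, t j * φ j z), ih, hsmul]
    exact gen _
  change ∫ ω, Complex.exp ((X n ω (fun z => ∑ j, t j * φ j z) : ℂ) * Complex.I) ∂μ n =
    charFun ((μ n).map (fun ω =>
      (WithLp.toLp 2 (fun j => X n ω (φ j)) : EuclideanSpace ℝ (Fin k)))) t
  rw [charFun_apply, integral_map (hX n) (by fun_prop)]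
  refine integral_congr_ae (ae_of_all _ fun ω => ?_)
  simp only []
  rw [hlin ω]
  congr 3

/-! ### The wrapper for the law in a polygon -/

theorem JordanDomain.isBounded {D : Set (ℝ × ℝ)} (h : JordanDomain D) :
    Bornology.IsBounded D := by
  obtain ⟨Φ, rfl⟩ := h
  have hK : IsCompact (Metric.closedBall (0 : ℝ × ℝ) 1) := isCompact_closedBall _ _
  refine (hK.image Φ.continuous).isBounded.subset (Set.image_mono ?_)
  intro z hz
  simp only [Set.mem_ofPred_eq] at hz
  rw [mem_closedBall_zero_iff, Prod.norm_def, sup_le_iff, Real.norm_eq_abs, Real.norm_eq_abs,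
    abs_le, abs_le]
  constructor <;> constructor <;> nlinarith [sq_nonneg z.1, sq_nonneg z.2]

theorem JordanDomain.isOpen {D : Set (ℝ × ℝ)} (h : JordanDomain D) : IsOpen D := by
  obtain ⟨Φ, rfl⟩ := h
  exact Φ.isOpenMap _ (isOpen_lt (by fun_prop) continuous_const)

theorem law_aemeasurable {β : Type*} [MeasurableSpace β] (t : ℝ) {n : ℕ} (p : ZMod n → ℤ × ℤ)
    (F : Finset (ℤ × ℤ)) (f : Conf → β) : AEMeasurable f (law t p F) := by
  classical
  unfold law
  have gen : ∀ (s : Finset (Finset Site)) (c : Finset Site → ENNReal),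
      AEMeasurable f (∑ S ∈ s, c S • Measure.dirac (conf S)) := by
    intro s c
    induction s using Finset.induction_on with
    | empty => simp
    | insert i s hi ih =>
      rw [Finset.sum_insert hi]
      exact AEMeasurable.add_measure (AEMeasurable.smul_measure aemeasurable_dirac _) ih
  exact gen _ _

theorem fldD_add (F : Finset (ℤ × ℤ)) (H : Site → ℝ) (δ : ℝ) (φ ψ : ℝ × ℝ → ℝ) :
    fldD F H δ (fun z => φ z + ψ z) = fldD F H δ φ + fldD F H δ ψ := by
  unfold fldD
  rw [← mul_add, ← Finset.sum_add_distrib]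
  congr 1
  exact Finset.sum_congr rfl fun v _ => by ring

theorem fldD_smul (F : Finset (ℤ × ℤ)) (H : Site → ℝ) (δ : ℝ) (a : ℝ) (φ : ℝ × ℝ → ℝ) :
    fldD F H δ (fun z => a * φ z) = a * fldD F H δ φ := by
  unfold fldD
  rw [mul_left_comm]
  congr 1
  rw [Finset.mul_sum]
  exact Finset.sum_congr rfl fun v _ => by ring

/-- The last part of `Conv`, from the convergence of the characteristic functions. -/
theorem conv_of_char {D : Set (ℝ × ℝ)} (hD : JordanDomain D) {t s : ℝ} {δ : ℕ → ℝ} {N : ℕ → ℕ}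
    {p : ∀ n, ZMod (N n) → ℤ × ℤ} {F : ℕ → Finset (ℤ × ℤ)}
    [∀ n, IsProbabilityMeasure (law t (p n) (F n))] (H : ∀ _ : ℕ, Conf → Site → ℝ)
    (hch : ∀ φ, TestOn D φ → Tendsto
      (fun n => ∫ σ, Complex.exp ((fldD (F n) (H n σ) (δ n) φ : ℂ) * Complex.I)
        ∂law t (p n) (F n)) atTop
      (𝓝 (Complex.exp (-((s ^ 2 * (2 * Real.pi) * V D φ : ℝ) : ℂ) / 2))))
    (k : ℕ) (φ : Fin k → ℝ × ℝ → ℝ) (hφ : ∀ j, TestOn D (φ j)) :
    (Matrix.of (fun i j => s ^ 2 * (2 * Real.pi * dirCov D (φ i) (φ j)))).PosSemidef ∧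
    TendstoInDistribution (fun (n : ℕ) (σ : Conf) =>
      (WithLp.toLp 2 (fun j => fldD (F n) (H n σ) (δ n) (φ j)) : EuclideanSpace ℝ (Fin k)))
      atTop (id : EuclideanSpace ℝ (Fin k) → EuclideanSpace ℝ (Fin k))
      (fun n => law t (p n) (F n))
      (multivariateGaussian 0
        (Matrix.of (fun i j => s ^ 2 * (2 * Real.pi * dirCov D (φ i) (φ j))))) := by
  have hc : 0 ≤ s ^ 2 * (2 * Real.pi) := by positivity
  have e : (Matrix.of (fun i j => s ^ 2 * (2 * Real.pi * dirCov D (φ i) (φ j)))) =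
      Matrix.of (fun i j => s ^ 2 * (2 * Real.pi) * dirCov D (φ i) (φ j)) := by
    ext i j
    simp only [Matrix.of_apply]
    ring
  rw [e]
  exact vec_conv hD.isBounded hc (fun n => law t (p n) (F n))
    (fun n σ φ => fldD (F n) (H n σ) (δ n) φ) (fun n σ φ ψ => fldD_add _ _ _ _ _)
    (fun n σ a φ => fldD_smul _ _ _ _ _) (fun n φ => law_aemeasurable _ _ _ _) hch k φ hφ

end Vale.Agent.P145.Dom
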