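import Vale.Agent.P145.Dom.Ht
import Vale.Agent.P145.FP.Spin

/-!
Zero boundary six-vertex heights on a finite set of faces of `ℤ²`.
-/

namespace Vale.Agent.P145.Dom

open Finset Filter Topology MeasureTheory ProbabilityTheory Vale.Agent.P145.FP
  Vale.Agent.P145.PT

/-- Six-vertex heights (twice the height function) on the finite set `F` of faces of `ℤ²`: even
at the vertices, neighbouring heights differ by one, `0` at the vertices which have a face outside
of `F` (and, by convention, at the faces outside of `F`). -/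
def ZH (F : Finset (ℤ × ℤ)) : Set (Site → ℤ) :=
  {x | (∀ v, Even (x (Sum.inl v))) ∧ (∀ f, f ∉ F → x (Sum.inr f) = 0) ∧
    ∀ f : ℤ × ℤ, ∀ a b : ℤ, (a = 0 ∨ a = 1) → (b = 0 ∨ b = 1) →
      (f ∉ F → x (Sum.inl (f.1 + a, f.2 + b)) = 0) ∧
      (f ∈ F → |x (Sum.inr f) - x (Sum.inl (f.1 + a, f.2 + b))| = 1)}

/-- The weight: `c` for every interior edge such that the heights agree at both ends and at both
sides. -/
noncomputable def zw (c : ℝ) (F : Finset (ℤ × ℤ)) (x : Site → ℤ) : ℝ :=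
  (∏ e ∈ F with e - (0, 1) ∈ F,
    if x (Sum.inl e) = x (Sum.inl (e.1 + 1, e.2)) ∧ x (Sum.inr e) = x (Sum.inr (e.1, e.2 - 1))
      then c else 1) *
  ∏ e ∈ F with e - (1, 0) ∈ F,
    if x (Sum.inl e) = x (Sum.inl (e.1, e.2 + 1)) ∧ x (Sum.inr e) = x (Sum.inr (e.1 - 1, e.2))
      then c else 1

/-- The weighted sum of `Φ` over the zero boundary heights on `F`. -/
noncomputable def zs (c : ℝ) (F : Finset (ℤ × ℤ)) (Φ : (Site → ℤ) → ℝ) : ℝ :=
  ∑ᶠ x ∈ ZH F, zw c F x * Φ x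

/-- The expectation of `Φ` under the zero boundary law on `F`. -/
noncomputable def ze (c : ℝ) (F : Finset (ℤ × ℤ)) (Φ : (Site → ℤ) → ℝ) : ℝ :=
  zs c F Φ / zs c F (fun _ => 1)

/-- `δ² ∑_v h(v) φ(δ v) / 2`: the height function `h / 2` tested against `φ`. -/
noncomputable def zf (F : Finset (ℤ × ℤ)) (δ : ℝ) (φ : ℝ × ℝ → ℝ) (x : Site → ℤ) : ℝ :=
  fldD F (fun s => (x s : ℝ) / 2) δ φ

end Vale.Agent.P145.Dom
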